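import Vale.Agent.P205.Free.Recursion
import Vale.Agent.P205.Wave.Expand

/-!
The free wave itself: its induced metric is the finite expansion; it is the old map where the
profile is trivial and nothing is prescribed.
-/

noncomputable section

open Set Finset Real
open scoped ContDiff

namespace Vale.Agent.P205.Free

open Wave

variable {E : Type} [NormedAddCommGroup E] [NormedSpace ℝ E] [FiniteDimensional ℝ E]

namespace Data

variable (W : Data E)

/-- The free wave of order `N` with phase `φ` at frequency `k`. -/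
def out (N : ℕ) (φ : E →L[ℝ] ℝ) (k : ℝ) (x : E) : V4 :=
  W.Z x + ∑ j ∈ range (N + 1), k⁻¹ ^ (j + 1) • W.upTo (N + 1) (j + 1) x (k * φ x)

variable {W}

theorem D_out (h : W.Good) (N : ℕ) (φ : E →L[ℝ] ℝ) (hv : φ W.v = 1) (he : φ W.e = 0) {k : ℝ}
    (hk : k ≠ 0) {x : E} (hx : x ∈ W.Ω) :
    D W.e (W.out N φ k) x =
        ∑ i ∈ range (N + 2), k⁻¹ ^ i • W.toData.de (W.upTo (N + 1)) i x (k * φ x) ∧
      D W.v (W.out N φ k) x =
        ∑ i ∈ range (N + 2), k⁻¹ ^ i • W.toData.dv (W.upTo (N + 1)) i x (k * φ x) := by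
  have hI := inv_upTo h N
  have hZ : DifferentiableAt ℝ W.Z x :=
    (h.smoothZ.differentiableOn (by simp)).differentiableAt (h.open_.mem_nhds hx)
  have hd := fun a j => hasFDerivAt_fast h.open_ (hI.sp j).smooth φ k hx a
  have hsum : ∀ a, D a (W.out N φ k) x = D a W.Z x + ∑ j ∈ range (N + 1), k⁻¹ ^ (j + 1) •
      (D a (fun y => W.upTo (N + 1) (j + 1) y (k * φ x)) x +
        (k * φ a) • deriv (W.upTo (N + 1) (j + 1) x) (k * φ x)) := fun a => by
    have h1 : HasFDerivAt (W.out N φ k) _ x := hZ.hasFDerivAt.add (HasFDerivAt.fun_sum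
      (u := range (N + 1)) fun j _ => ((hd a (j + 1)).1.hasFDerivAt.const_smul (k⁻¹ ^ (j + 1))))
    simp only [D]
    rw [h1.fderiv]
    simp only [_root_.add_apply, FunLike.coe_sum, Finset.sum_apply, _root_.smul_apply]
    exact congrArg _ (sum_congr rfl fun j _ => congrArg _ (hd a (j + 1)).2)
  constructor
  · rw [hsum, he, sum_range_succ' _ (N + 1)]
    simp only [mul_zero, zero_smul, add_zero, Wave.Data.de, Nat.add_one_ne_zero, if_false, if_true,
      pow_zero, one_smul, Wave.Data.Ze]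
    exact add_comm _ _
  · rw [hsum, hv, mul_one]
    simp only [smul_add, sum_add_distrib, smul_smul, Wave.Data.dv]
    rw [sum_range_succ' (fun i => k⁻¹ ^ i • if i = 0 then W.toData.Zv x else
        D W.v (fun y => W.upTo (N + 1) i y (k * φ x)) x) (N + 1),
      sum_range_succ (fun i => k⁻¹ ^ i • deriv (W.upTo (N + 1) (i + 1) x) (k * φ x)) (N + 1)]
    have e0 : deriv (W.upTo (N + 1) (N + 1 + 1) x) (k * φ x) = 0 := by
      have : W.upTo (N + 1) (N + 1 + 1) x = fun _ => 0 :=
        funext fun s => hI.beyond _ (by omega) x s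
      simp [this]
    have e1 : ∀ j, k⁻¹ ^ (j + 1) * k = k⁻¹ ^ j := fun j => by
      rw [pow_succ, mul_assoc, inv_mul_cancel₀ hk, mul_one]
    simp only [e0, smul_zero, add_zero, e1, Nat.add_one_ne_zero, if_false, if_true, pow_zero,
      one_smul, Wave.Data.Zv]
    abel

theorem vanish_beyond (h : W.Good) (N i : ℕ) (hi : N + 2 ≤ i) (x : E) (s : ℝ) :
    W.toData.de (W.upTo (N + 1)) i x s = 0 ∧ W.toData.dv (W.upTo (N + 1)) i x s = 0 := by
  have hI := inv_upTo h N
  have e1 : ∀ j, N + 1 < j → W.upTo (N + 1) j = fun _ _ => 0 :=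
    fun j hj => funext fun y => funext fun r => hI.beyond j hj y r
  constructor
  · simp [Wave.Data.de, show i ≠ 0 by omega, e1 i (by omega), D]
  · simp [Wave.Data.dv, show i ≠ 0 by omega, e1 i (by omega), e1 (i + 1) (by omega), D]

/-- The induced metric of the free wave is the finite sum of the coefficients. -/
theorem out_metric (h : W.Good) (N : ℕ) (φ : E →L[ℝ] ℝ) (hv : φ W.v = 1) (he : φ W.e = 0) {k : ℝ}
    (hk : k ≠ 0) {x : E} (hx : x ∈ W.Ω) :
    let X := W.out N φ k
    let c := fun (f : (ℕ → E → ℝ → V4) → ℕ → E → ℝ → ℝ) =>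
      ∑ n ∈ range (2 * (N + 2)), k⁻¹ ^ n * f (W.upTo (N + 1)) n x (k * φ x)
    ip (D W.e X x) (D W.e X x) = c W.toData.coefEE ∧
      ip (D W.v X x) (D W.e X x) = c W.toData.coefVE ∧
      ip (D W.v X x) (D W.v X x) = c W.toData.coefVV := by
  obtain ⟨h1, h2⟩ := D_out h N φ hv he hk hx
  have hz := fun i hi => vanish_beyond h N i hi x (k * φ x)
  simp only [h1, h2]
  exact ⟨ip_sum_pow _ _ _ _ (fun i hi => (hz i hi).1) fun i hi => (hz i hi).1,
    ip_sum_pow _ _ _ _ (fun i hi => (hz i hi).2) fun i hi => (hz i hi).1,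
    ip_sum_pow _ _ _ _ (fun i hi => (hz i hi).2) fun i hi => (hz i hi).2⟩

/-- Order zero: the old metric plus the square of the amplitude on the phase. -/
theorem coef_zero (h : W.Good) (N : ℕ) {x : E} (hx : x ∈ W.Ω) (s : ℝ) :
    W.toData.coefEE (W.upTo (N + 1)) 0 x s = ip (W.toData.Ze x) (W.toData.Ze x) ∧
      W.toData.coefVE (W.upTo (N + 1)) 0 x s = ip (W.toData.Zv x) (W.toData.Ze x) ∧
      W.toData.coefVV (W.upTo (N + 1)) 0 x s = ip (W.toData.Zv x) (W.toData.Zv x) + W.amp2 x := by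
  have hd := (inv_upTo h N).dv0 x hx s
  have hp := ip_Ze_pv h hx
  have ht := h.ortT x hx s
  refine ⟨by simp [Wave.Data.coefEE, Wave.Data.de], ?_, ?_⟩
  · simp only [Wave.Data.coefVE, zero_add, sum_range_one, Nat.sub_zero, Wave.Data.de, if_true]
    rw [hd, ip_comm, ip_Ze_vel h hx]
  · simp only [Wave.Data.coefVV, zero_add, sum_range_one, Nat.sub_zero]
    rw [hd, amp2, vel_eq]
    conv_rhs => rw [show W.toData.Zv x =
      (ip (W.toData.Zv x) (W.toData.Ze x) / W.zz x) • W.toData.Ze x + W.pv x by simp [pv]]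
    simp only [ip_add_left, ip_add_right, ip_smul_left, ip_smul_right, h.normT x hx, ht, hp,
      ip_comm (W.T x s) (W.toData.Ze x), ip_comm (W.pv x) (W.toData.Ze x)]
    ring

omit [FiniteDimensional ℝ E] in
/-- Locality: on an open set where the profile is trivial and nothing is prescribed, every
corrector is zero. -/
theorem upTo_eq_zero {U : Set E} (hU : IsOpen U)
    (hr : ∀ x ∈ U, ∀ s, W.T x s = W.pv x) (hE : ∀ n, ∀ x ∈ U, W.Err n x = 0) :
    ∀ (m j : ℕ), ∀ x ∈ U, ∀ s, W.upTo (m + 1) j x s = 0 := by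
  intro m
  induction m with
  | zero =>
    intro j x hx s
    rcases eq_or_ne j 1 with rfl | hj
    · rw [show W.upTo 1 1 = W.Y1 from Function.update_self _ _ _]
      simp [Y1, hr x hx, prim, mean]
    · rw [show W.upTo 1 j = fun _ _ => 0 from Function.update_of_ne hj _ _]
  | succ m ih =>
    intro j x hx s
    rw [show W.upTo (m + 1 + 1) = Function.update (W.upTo (m + 1)) (m + 2)
      (W.step (W.upTo (m + 1)) (m + 1)) from rfl]
    rcases eq_or_ne j (m + 2) with rfl | hj
    swap
    · rw [Function.update_of_ne hj]; exact ih j x hx s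
    rw [Function.update_self]
    have hDa : ∀ (a : E) i r, D a (fun y => W.upTo (m + 1) i y r) x = 0 := fun a i r => by
      have e : (fun y => W.upTo (m + 1) i y r) =ᶠ[nhds x] fun _ => (0 : V4) := by
        filter_upwards [hU.mem_nhds hx] with y hy using ih i y hy r
      simp [D, e.fderiv_eq]
    have hY : ∀ i, W.upTo (m + 1) i x = fun _ => 0 := fun i => funext (ih i x hx)
    have hde : ∀ i, 0 < i → ∀ r, W.toData.de (W.upTo (m + 1)) i x r = 0 :=
      fun i hi r => by simp [Wave.Data.de, hi.ne', hDa]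
    have hdv : ∀ i, 0 < i → ∀ r, W.toData.dv (W.upTo (m + 1)) i x r = 0 :=
      fun i hi r => by simp [Wave.Data.dv, hi.ne', hDa, hY (i + 1)]
    have hc : ∀ (A B : ℕ → E → ℝ → V4), (∀ i, 0 < i → ∀ r, A i x r = 0) →
        (∀ i, 0 < i → ∀ r, B i x r = 0) → ∀ n, 0 < n → ∀ r,
          ∑ i ∈ range (n + 1), ip (A i x r) (B (n - i) x r) = 0 :=
      fun A B hA hB n hn r => sum_eq_zero fun i hi => by
        rcases Nat.eq_zero_or_pos i with rfl | h0
        · rw [hB _ (by omega), ip_zero_right]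
        · rw [hA i h0, ip_zero_left]
    have r1 : W.toData.res1 (W.upTo (m + 1)) (m + 1) x = fun _ => 0 := funext fun r => by
      simp [Wave.Data.res1, Wave.Data.coefVE, hc _ _ hdv hde (m + 1) (by omega) r, hE _ x hx]
    have u0 : W.toData.du1 (W.upTo (m + 1)) (m + 1) x = fun _ => 0 := funext fun r => by
      simp [Wave.Data.du1, r1, mean]
    have gz : W.gvv (W.upTo (m + 1)) (m + 1) x = fun _ => 0 := funext fun r => by
      simp [gvv, Wave.Data.coefVV, hc _ _ hdv hdv (m + 1) (by omega) r, hE _ x hx, u0]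
    have qz : W.dq (W.upTo (m + 1)) (m + 1) x = fun _ => 0 := funext fun r => by
      simp [dq, mvec, gz, mean]
    simp [step, Wave.Data.u1, u0, qz, prim, mean]

end Data

end Vale.Agent.P205.Free
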