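import Vale.Agent.P205.Wave.Frame

/-!
The shape of a free profile: the stereographic image of the closed curve
`c₁ sin s • (cos θ, sin θ)`, `θ = -c₂ cos s`. For `c₂ = 0` it is planar; for `c₂ ≠ 0` the
derivative never vanishes while the mean along the old velocity does not depend on `c₂`.
-/

noncomputable section

open Set Finset Real
open scoped ContDiff

namespace Vale.Agent.P205.Free

open Wave

def crv1 (c : ℝ × ℝ) (s : ℝ) : ℝ := c.1 * Real.sin s * Real.cos (c.2 * Real.cos s)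
def crv2 (c : ℝ × ℝ) (s : ℝ) : ℝ := -(c.1 * Real.sin s * Real.sin (c.2 * Real.cos s))
def den (c : ℝ × ℝ) (s : ℝ) : ℝ := 1 + (crv1 c s ^ 2 + crv2 c s ^ 2)
/-- The component along the old velocity. -/
def sh0 (c : ℝ × ℝ) (s : ℝ) : ℝ := (1 - (crv1 c s ^ 2 + crv2 c s ^ 2)) / den c s
/-- The first normal component. -/
def sh1 (c : ℝ × ℝ) (s : ℝ) : ℝ := 2 * crv1 c s / den c s
/-- The second normal component. -/
def sh2 (c : ℝ × ℝ) (s : ℝ) : ℝ := 2 * crv2 c s / den c s

theorem den_pos (c : ℝ × ℝ) (s : ℝ) : 0 < den c s := by unfold den; positivity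

theorem sh_sq (c : ℝ × ℝ) (s : ℝ) : sh0 c s ^ 2 + sh1 c s ^ 2 + sh2 c s ^ 2 = 1 := by
  have := den_pos c s
  unfold sh0 sh1 sh2
  field_simp
  unfold den
  ring

theorem contDiff_sh : ContDiff ℝ ∞ (fun p : (ℝ × ℝ) × ℝ => sh0 p.1 p.2) ∧
    ContDiff ℝ ∞ (fun p : (ℝ × ℝ) × ℝ => sh1 p.1 p.2) ∧
    ContDiff ℝ ∞ fun p : (ℝ × ℝ) × ℝ => sh2 p.1 p.2 := by
  have hs := Real.contDiff_sin (n := ∞)
  have hc := Real.contDiff_cos (n := ∞)
  have h1 : ContDiff ℝ ∞ fun p : (ℝ × ℝ) × ℝ => crv1 p.1 p.2 := by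
    unfold crv1; fun_prop
  have h2 : ContDiff ℝ ∞ fun p : (ℝ × ℝ) × ℝ => crv2 p.1 p.2 := by
    unfold crv2; fun_prop
  have hd : ContDiff ℝ ∞ fun p : (ℝ × ℝ) × ℝ => den p.1 p.2 :=
    contDiff_const.add ((h1.pow 2).add (h2.pow 2))
  have hne := fun p : (ℝ × ℝ) × ℝ => (den_pos p.1 p.2).ne'
  exact ⟨(contDiff_const.sub ((h1.pow 2).add (h2.pow 2))).div hd hne,
    (contDiff_const.mul h1).div hd hne, (contDiff_const.mul h2).div hd hne⟩

theorem continuous_sh (c : ℝ × ℝ) :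
    Continuous (sh0 c) ∧ Continuous (sh1 c) ∧ Continuous (sh2 c) :=
  ⟨contDiff_sh.1.continuous.comp (Continuous.prodMk_right c),
    contDiff_sh.2.1.continuous.comp (Continuous.prodMk_right c),
    contDiff_sh.2.2.continuous.comp (Continuous.prodMk_right c)⟩

theorem crv_shift (c : ℝ × ℝ) (s : ℝ) : crv1 c (s + π) = -crv1 c s ∧ crv2 c (s + π) = crv2 c s := by
  simp only [crv1, crv2, Real.cos_add_pi, Real.sin_add_pi, mul_neg, Real.cos_neg, Real.sin_neg,
    neg_mul, neg_neg, and_self]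

theorem sh_shift (c : ℝ × ℝ) (s : ℝ) :
    sh0 c (s + π) = sh0 c s ∧ sh1 c (s + π) = -sh1 c s ∧ sh2 c (s + π) = sh2 c s := by
  simp [sh0, sh1, sh2, den, crv_shift, neg_div]

theorem sh_neg (c : ℝ × ℝ) (s : ℝ) :
    sh0 c (-s) = sh0 c s ∧ sh1 c (-s) = -sh1 c s ∧ sh2 c (-s) = -sh2 c s := by
  simp [sh0, sh1, sh2, den, crv1, crv2, neg_div]

theorem sh_per (c : ℝ × ℝ) : Function.Periodic (sh0 c) (2 * π) ∧
    Function.Periodic (sh1 c) (2 * π) ∧ Function.Periodic (sh2 c) (2 * π) := by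
  refine ⟨fun s => ?_, fun s => ?_, fun s => ?_⟩ <;>
  rw [show s + 2 * π = s + π + π by ring] <;> simp [sh_shift]

/-- A periodic function which changes sign under half a period has zero mean. -/
theorem mean_anti {f : ℝ → ℝ} (hf : Continuous f) (ha : ∀ s, f (s + π) = -f s) : mean f = 0 := by
  have h := intervalIntegral.integral_comp_add_right f π (a := 0) (b := π)
  simp only [ha, intervalIntegral.integral_neg, zero_add] at h
  have e := intervalIntegral.integral_add_adjacent_intervals (hf.intervalIntegrable 0 π)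
    (hf.intervalIntegrable π (2 * π)) (μ := MeasureTheory.volume)
  rw [show π + π = 2 * π by ring] at h
  rw [mean, ← e, ← h]
  simp

/-- An odd periodic function has zero mean. -/
theorem mean_odd {f : ℝ → ℝ} (hp : Function.Periodic f (2 * π))
    (ho : ∀ s, f (-s) = -f s) : mean f = 0 := by
  have e := intervalIntegral.integral_comp_neg f (a := 0) (b := 2 * π)
  simp only [ho, intervalIntegral.integral_neg, neg_zero] at e
  have e2 := hp.intervalIntegral_add_eq (-(2 * π)) 0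
  rw [neg_add_cancel, zero_add, ← e] at e2
  have : ∫ s in (0 : ℝ)..(2 * π), f s = 0 := by linarith
  simp [mean, this]

/-- The mean of a continuous nonnegative function, positive somewhere in a period, is positive. -/
theorem mean_pos {f : ℝ → ℝ} (hf : Continuous f) (h0 : ∀ s, 0 ≤ f s) {r : ℝ}
    (hr : r ∈ Icc 0 (2 * π)) (hr0 : 0 < f r) : 0 < mean f := by
  rw [mean, smul_eq_mul]
  exact mul_pos (by positivity) (intervalIntegral.integral_pos (by positivity) hf.continuousOn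
    (fun s _ => h0 s) ⟨r, hr, hr0⟩)

theorem mean_sh1 (c : ℝ × ℝ) : mean (sh1 c) = 0 ∧ mean (fun s => sh0 c s * sh1 c s) = 0 ∧
    mean (fun s => sh1 c s * sh2 c s) = 0 := by
  obtain ⟨c0, c1, c2⟩ := continuous_sh c
  exact ⟨mean_anti c1 fun s => (sh_shift c s).2.1,
    mean_anti (f := fun s => sh0 c s * sh1 c s) (c0.mul c1) fun s => by simp [sh_shift],
    mean_anti (f := fun s => sh1 c s * sh2 c s) (c1.mul c2) fun s => by simp [sh_shift]⟩

theorem mean_sh2 (c : ℝ × ℝ) : mean (sh2 c) = 0 ∧ mean (fun s => sh0 c s * sh2 c s) = 0 :=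
  ⟨mean_odd (sh_per c).2.2 fun s => (sh_neg c s).2.2,
    mean_odd (f := fun s => sh0 c s * sh2 c s) ((sh_per c).1.mul (sh_per c).2.2)
      fun s => by simp [sh_neg]⟩

/-- `1` minus the mean square of the first normal component. -/
def gap1 (c : ℝ × ℝ) : ℝ := mean fun s => 1 - sh1 c s * sh1 c s
/-- `1` minus the mean square of the second normal component. -/
def gap2 (c : ℝ × ℝ) : ℝ := mean fun s => 1 - sh2 c s * sh2 c s

theorem gap_pos (c : ℝ × ℝ) : 0 < gap1 c ∧ 0 < gap2 c := by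
  obtain ⟨-, c1, c2⟩ := continuous_sh c
  constructor
  · refine mean_pos (continuous_const.sub (c1.mul c1)) (fun s => ?_)
      (r := 0) ⟨le_rfl, by positivity⟩ ?_
    · nlinarith [sh_sq c s, sq_nonneg (sh0 c s), sq_nonneg (sh2 c s)]
    · simp [sh1, crv1]
  · refine mean_pos (continuous_const.sub (c2.mul c2)) (fun s => ?_)
      (r := 0) ⟨le_rfl, by positivity⟩ ?_
    · nlinarith [sh_sq c s, sq_nonneg (sh0 c s), sq_nonneg (sh1 c s)]
    · simp [sh2, crv2]

theorem mean_sq_sh (c : ℝ × ℝ) : mean (fun s => sh1 c s * sh1 c s) = 1 - gap1 c ∧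
    mean (fun s => sh2 c s * sh2 c s) = 1 - gap2 c := by
  obtain ⟨-, c1, c2⟩ := continuous_sh c
  constructor
  · rw [gap1, mean_sub (f := fun _ => (1 : ℝ)) (g := fun s => sh1 c s * sh1 c s) continuous_const
      (c1.mul c1), mean_const]
    ring
  · rw [gap2, mean_sub (f := fun _ => (1 : ℝ)) (g := fun s => sh2 c s * sh2 c s) continuous_const
      (c2.mul c2), mean_const]
    ring

theorem crv_sq (c : ℝ × ℝ) (s : ℝ) : crv1 c s ^ 2 + crv2 c s ^ 2 = (c.1 * Real.sin s) ^ 2 := by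
  simp only [crv1, crv2]
  linear_combination (c.1 * Real.sin s) ^ 2 * Real.cos_sq_add_sin_sq (c.2 * Real.cos s)

theorem sh0_eq (c : ℝ × ℝ) (s : ℝ) :
    sh0 c s = 2 * (1 / (1 + (c.1 * Real.sin s) ^ 2)) - 1 := by
  rw [sh0, den, crv_sq]
  field_simp
  ring

/-- The mean along the old velocity. -/
theorem mean_sh0 (c : ℝ × ℝ) : mean (sh0 c) = 2 / Real.sqrt (1 + c.1 ^ 2) - 1 := by
  have hc : Continuous fun s => 1 / (1 + (c.1 * Real.sin s) ^ 2) :=
    continuous_const.div (by fun_prop) fun s => by positivity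
  rw [funext (sh0_eq c), mean_sub (f := fun s => 2 * (1 / (1 + (c.1 * Real.sin s) ^ 2)))
    (continuous_const.mul hc) continuous_const, mean_mul, mean_rat, mean_const]
  ring

/-- The derivative of the curve. -/
theorem hasDerivAt_crv (c : ℝ × ℝ) (s : ℝ) :
    HasDerivAt (crv1 c) (c.1 * (Real.cos s * Real.cos (c.2 * Real.cos s) +
        c.2 * Real.sin s ^ 2 * Real.sin (c.2 * Real.cos s))) s ∧
      HasDerivAt (crv2 c) (c.1 * (-(Real.cos s * Real.sin (c.2 * Real.cos s)) +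
        c.2 * Real.sin s ^ 2 * Real.cos (c.2 * Real.cos s))) s := by
  have h := (Real.hasDerivAt_sin s).const_mul c.1
  have hθ := (Real.hasDerivAt_cos s).const_mul c.2
  exact ⟨(h.mul hθ.cos).congr_deriv (by ring), (h.mul hθ.sin).neg.congr_deriv (by ring)⟩

/-- The squared speed of the shape in the sphere. -/
def speed2 (c : ℝ × ℝ) (s : ℝ) : ℝ :=
  deriv (sh0 c) s ^ 2 + deriv (sh1 c) s ^ 2 + deriv (sh2 c) s ^ 2

/-- The squared speed and the derivative of the second normal component. -/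
theorem speed2_eq (c : ℝ × ℝ) (s : ℝ) :
    speed2 c s = 4 * (c.1 ^ 2 * (Real.cos s ^ 2 + c.2 ^ 2 * Real.sin s ^ 4)) / den c s ^ 2 ∧
      deriv (sh2 c) s = 2 / den c s * (c.1 * ((1 - (c.1 * Real.sin s) ^ 2) / den c s *
        -(Real.cos s * Real.sin (c.2 * Real.cos s)) +
        c.2 * (Real.sin s ^ 2 * Real.cos (c.2 * Real.cos s)))) := by
  obtain ⟨h1, h2⟩ := hasDerivAt_crv c s
  set p' := c.1 * (Real.cos s * Real.cos (c.2 * Real.cos s) +
        c.2 * Real.sin s ^ 2 * Real.sin (c.2 * Real.cos s)) with hp'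
  set q' := c.1 * (-(Real.cos s * Real.sin (c.2 * Real.cos s)) +
        c.2 * Real.sin s ^ 2 * Real.cos (c.2 * Real.cos s)) with hq'
  have hr := (h1.pow 2).add (h2.pow 2)
  have hd := (hr.const_add 1)
  have hne := (den_pos c s).ne'
  have e0 : deriv (sh0 c) s =
      -(4 * (crv1 c s * p' + crv2 c s * q')) / den c s ^ 2 := by
    have h0 : HasDerivAt (sh0 c) _ s := (hr.const_sub 1).div hd hne
    rw [h0.deriv]
    unfold den
    simp only [Pi.add_apply, Pi.pow_apply]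
    field_simp
    ring
  have e1 : deriv (sh1 c) s = 2 * p' / den c s -
      4 * crv1 c s * (crv1 c s * p' + crv2 c s * q') / den c s ^ 2 := by
    have h0 : HasDerivAt (sh1 c) _ s := (h1.const_mul 2).div hd hne
    rw [h0.deriv]
    unfold den
    field_simp
    ring
  have e2 : deriv (sh2 c) s = 2 * q' / den c s -
      4 * crv2 c s * (crv1 c s * p' + crv2 c s * q') / den c s ^ 2 := by
    have h0 : HasDerivAt (sh2 c) _ s := (h2.const_mul 2).div hd hne
    rw [h0.deriv]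
    unfold den
    field_simp
    ring
  have e : speed2 c s = 4 * (p' ^ 2 + q' ^ 2) / den c s ^ 2 := by
    rw [speed2, e0, e1, e2]
    field_simp
    unfold den
    ring
  have epq : p' ^ 2 + q' ^ 2 = c.1 ^ 2 * (Real.cos s ^ 2 + c.2 ^ 2 * Real.sin s ^ 4) := by
    rw [hp', hq']
    linear_combination c.1 ^ 2 * (Real.cos s ^ 2 + c.2 ^ 2 * Real.sin s ^ 4) *
      Real.cos_sq_add_sin_sq (c.2 * Real.cos s)
  refine ⟨by rw [e, epq], ?_⟩
  rw [e2, hp', hq', ← crv_sq]
  field_simp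
  unfold den crv1 crv2
  ring_nf

/-- The speed of the shape is bounded below uniformly in the fast variable. -/
theorem speed2_ge {c : ℝ × ℝ} (hc : c.2 ^ 2 ≤ 2) (s : ℝ) :
    c.2 ^ 2 * (c.1 / (1 + c.1 ^ 2)) ^ 2 ≤ speed2 c s := by
  have hden : den c s ≤ 1 + c.1 ^ 2 := by
    rw [den, crv_sq, mul_pow]
    nlinarith [Real.sin_sq_le_one s, sq_nonneg c.1]
  have hlow : c.2 ^ 2 / 4 ≤ Real.cos s ^ 2 + c.2 ^ 2 * Real.sin s ^ 4 := by
    rw [Real.cos_sq']
    rcases le_total (1 / 2) (Real.sin s ^ 2) with h | h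
    · nlinarith [mul_le_mul_of_nonneg_left (pow_le_pow_left₀ (by norm_num) h 2) (sq_nonneg c.2),
        Real.sin_sq_le_one s]
    · nlinarith [mul_le_mul_of_nonneg_right hc (show (0 : ℝ) ≤ 1 / 4 - (Real.sin s ^ 2) ^ 2 by
        nlinarith [sq_nonneg (Real.sin s)]), sq_nonneg (Real.sin s ^ 2 - 1 / 4)]
  calc c.2 ^ 2 * (c.1 / (1 + c.1 ^ 2)) ^ 2
      = 4 * (c.1 ^ 2 * (c.2 ^ 2 / 4)) / (1 + c.1 ^ 2) ^ 2 := by rw [div_pow]; ring
    _ ≤ 4 * (c.1 ^ 2 * (Real.cos s ^ 2 + c.2 ^ 2 * Real.sin s ^ 4)) / den c s ^ 2 := by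
        have := den_pos c s
        gcongr
    _ = speed2 c s := (speed2_eq c s).1.symm

end Vale.Agent.P205.Free
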