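import Vale.Agent.P205.Free.Recursion
import Vale.Agent.P205.Free.Shape

/-!
The explicit free profile over a frame of two normals. With shape parameters `(c₁, c₂)` the
velocity is `len • (sh0 τ + sh1 L₁ + sh2 L₂)`; the planar parameters realise a prescribed square
of the amplitude.
-/

noncomputable section

open Set Finset Real
open scoped ContDiff

namespace Vale.Agent.P205.Free

open Wave

variable {E : Type} [NormedAddCommGroup E] [NormedSpace ℝ E] [FiniteDimensional ℝ E]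

/-- The data of a shaped free wave. -/
structure Prof (E : Type) [NormedAddCommGroup E] [NormedSpace ℝ E] where
  /-- Chart, directions, map and prescribed terms. -/
  base : Wave.Data E
  /-- The first normal. -/
  L1 : E → V4
  /-- The second normal. -/
  L2 : E → V4
  /-- The parameters of the shape. -/
  c : E → ℝ × ℝ

namespace Prof

variable (P : Prof E)

/-- The velocity orthogonal to `Z_e`. -/
def pvec (x : E) : V4 :=
  P.base.Zv x - (ip (P.base.Zv x) (P.base.Ze x) / ip (P.base.Ze x) (P.base.Ze x)) • P.base.Ze x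
def aP (x : E) : ℝ := Real.sqrt (ip (P.pvec x) (P.pvec x))
def tauP (x : E) : V4 := (1 / P.aP x) • P.pvec x
def m0 (x : E) : ℝ := mean (sh0 (P.c x))
/-- The length of the velocity orthogonal to `Z_e`. -/
def len (x : E) : ℝ := P.aP x / P.m0 x
/-- The direction of the velocity. -/
def unit (x : E) (s : ℝ) : V4 :=
  sh0 (P.c x) s • P.tauP x + sh1 (P.c x) s • P.L1 x + sh2 (P.c x) s • P.L2 x
/-- The fields removing means along `L1` and `L2`. -/
def fix1 (x : E) (s : ℝ) : V4 := (1 / gap1 (P.c x)) • (P.L1 x - sh1 (P.c x) s • P.unit x s)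
def fix2 (x : E) (s : ℝ) : V4 := (1 / gap2 (P.c x)) • (P.L2 x - sh2 (P.c x) s • P.unit x s)

/-- The free wave with this profile. -/
def data : Data E where
  toData := P.base
  T x s := P.len x • P.unit x s
  Phi i x s := (P.tauP x i / P.m0 x) • P.unit x s + P.L1 x i • P.fix1 x s + P.L2 x i • P.fix2 x s

/-- The hypotheses on a shaped free wave. -/
structure OK : Prop where
  open_ : IsOpen P.base.Ω
  smoothZ : ContDiffOn ℝ ∞ P.base.Z P.base.Ω
  smoothErr : ∀ n i, Smooth2 P.base.Ω fun x s => P.base.Err n x s i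
  perErr : ∀ n, ∀ x ∈ P.base.Ω, ∀ i, Function.Periodic (fun s => P.base.Err n x s i) (2 * π)
  zz_pos : ∀ x ∈ P.base.Ω, 0 < ip (P.base.Ze x) (P.base.Ze x)
  pp_pos : ∀ x ∈ P.base.Ω, 0 < ip (P.pvec x) (P.pvec x)
  smoothL1 : ContDiffOn ℝ ∞ P.L1 P.base.Ω
  smoothL2 : ContDiffOn ℝ ∞ P.L2 P.base.Ω
  smoothC : ContDiffOn ℝ ∞ P.c P.base.Ω
  unit1 : ∀ x ∈ P.base.Ω, ip (P.L1 x) (P.L1 x) = 1
  unit2 : ∀ x ∈ P.base.Ω, ip (P.L2 x) (P.L2 x) = 1
  ort12 : ∀ x ∈ P.base.Ω, ip (P.L1 x) (P.L2 x) = 0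
  ortE1 : ∀ x ∈ P.base.Ω, ip (P.base.Ze x) (P.L1 x) = 0
  ortE2 : ∀ x ∈ P.base.Ω, ip (P.base.Ze x) (P.L2 x) = 0
  ortV1 : ∀ x ∈ P.base.Ω, ip (P.base.Zv x) (P.L1 x) = 0
  ortV2 : ∀ x ∈ P.base.Ω, ip (P.base.Zv x) (P.L2 x) = 0
  m0_pos : ∀ x ∈ P.base.Ω, 0 < P.m0 x

variable {P}

omit [FiniteDimensional ℝ E] in
/-- The frame `(Z_e, τ, L1, L2)`: scalar products. -/
theorem frame (h : P.OK) {x : E} (hx : x ∈ P.base.Ω) :
    0 < P.aP x ∧ ip (P.tauP x) (P.tauP x) = 1 ∧ ip (P.base.Ze x) (P.tauP x) = 0 ∧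
      ip (P.tauP x) (P.L1 x) = 0 ∧ ip (P.tauP x) (P.L2 x) = 0 ∧ P.aP x • P.tauP x = P.pvec x := by
  have ha : 0 < P.aP x := Real.sqrt_pos.2 (h.pp_pos x hx)
  have hz := (h.zz_pos x hx).ne'
  have he : ip (P.base.Ze x) (P.pvec x) = 0 := by
    simp only [pvec, ip_sub_right, ip_smul_right, ip_comm (P.base.Ze x) (P.base.Zv x)]
    field_simp
    ring
  refine ⟨ha, ?_, ?_, ?_, ?_, ?_⟩
  · have hsq : P.aP x ^ 2 = ip (P.pvec x) (P.pvec x) := Real.sq_sqrt (h.pp_pos x hx).le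
    simp only [tauP, ip_smul_left, ip_smul_right, ← hsq]
    field_simp
  · simp [tauP, he]
  · simp [tauP, pvec, h.ortV1 x hx, h.ortE1 x hx]
  · simp [tauP, pvec, h.ortV2 x hx, h.ortE2 x hx]
  · rw [tauP, smul_smul, mul_one_div_cancel ha.ne', one_smul]

theorem complete4 {f : Fin 4 → V4} (hf : ∀ a b, ip (f a) (f b) = if a = b then 1 else 0)
    (i j : Fin 4) : ∑ a, f a i * f a j = if i = j then 1 else 0 := by
  have h : Matrix.of f * (Matrix.of f).transpose = 1 := by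
    ext a b
    simpa [Matrix.mul_apply, Matrix.one_apply, ip] using hf a b
  have h' : (Matrix.of f).transpose * Matrix.of f = 1 := mul_eq_one_comm.1 h
  simpa [Matrix.mul_apply, Matrix.one_apply] using congrFun (congrFun h' i) j

omit [FiniteDimensional ℝ E] in
/-- Completeness of the frame. -/
theorem frame_sum (h : P.OK) {x : E} (hx : x ∈ P.base.Ω) (i : Fin 4) :
    P.tauP x i • P.tauP x + P.L1 x i • P.L1 x + P.L2 x i • P.L2 x =
      Pi.single i 1 - (P.base.Ze x i / ip (P.base.Ze x) (P.base.Ze x)) • P.base.Ze x := by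
  obtain ⟨ha, h0, hE0, h01, h02, -⟩ := frame h hx
  set r := Real.sqrt (ip (P.base.Ze x) (P.base.Ze x)) with hr
  have hr0 : 0 < r := Real.sqrt_pos.2 (h.zz_pos x hx)
  have hr2 : ip (P.base.Ze x) (P.base.Ze x) = r ^ 2 := (Real.sq_sqrt (h.zz_pos x hx).le).symm
  set f : Fin 4 → V4 := ![(1 / r) • P.base.Ze x, P.tauP x, P.L1 x, P.L2 x] with hf
  have e := complete4 (f := f) (fun a b => by
    fin_cases a <;> fin_cases b <;>
      simp [hf, hr2, h0, hE0, h01, h02, h.unit1 x hx, h.unit2 x hx, h.ort12 x hx, h.ortE1 x hx,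
        h.ortE2 x hx, ip_comm (P.tauP x) (P.base.Ze x), ip_comm (P.L1 x) (P.base.Ze x),
        ip_comm (P.L2 x) (P.base.Ze x), ip_comm (P.L1 x) (P.tauP x), ip_comm (P.L2 x) (P.tauP x),
        ip_comm (P.L2 x) (P.L1 x)]
    field_simp) i
  funext j
  have e' := e j
  simp [hf, Fin.sum_univ_four] at e'
  simp only [Pi.add_apply, Pi.smul_apply, smul_eq_mul, Pi.sub_apply, Pi.single_apply, hr2]
  rcases eq_or_ne i j with rfl | hij
  · simp only [if_true] at e' ⊢
    field_simp at e' ⊢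
    linear_combination e'
  · simp only [hij, hij.symm, if_false] at e' ⊢
    field_simp at e' ⊢
    linear_combination e'

omit [FiniteDimensional ℝ E] in
theorem smooth_aP (h : P.OK) :
    ContDiffOn ℝ ∞ P.aP P.base.Ω ∧ ContDiffOn ℝ ∞ P.tauP P.base.Ω := by
  have h1 := contDiffOn_D h.open_ h.smoothZ P.base.e
  have h2 := contDiffOn_D h.open_ h.smoothZ P.base.v
  have hp : ContDiffOn ℝ ∞ P.pvec P.base.Ω :=
    h2.sub (((contDiffOn_ip h2 h1).div (contDiffOn_ip h1 h1)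
      fun x hx => (h.zz_pos x hx).ne').smul h1)
  have ha : ContDiffOn ℝ ∞ P.aP P.base.Ω :=
    (contDiffOn_ip hp hp).sqrt fun x hx => (h.pp_pos x hx).ne'
  exact ⟨ha, (contDiffOn_const.div ha fun x hx => (frame h hx).1.ne').smul hp⟩

attribute [local irreducible] sh0 sh1 sh2 in
omit [FiniteDimensional ℝ E] in
theorem sp_sh (h : P.OK) :
    SP P.base.Ω (fun x s => sh0 (P.c x) s) ∧ SP P.base.Ω (fun x s => sh1 (P.c x) s) ∧
      SP P.base.Ω fun x s => sh2 (P.c x) s := by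
  have hc : ContDiffOn ℝ ∞ (fun p : E × ℝ => (P.c p.1, p.2)) (P.base.Ω ×ˢ univ) :=
    (h.smoothC.comp contDiff_fst.contDiffOn fun _ hp => hp.1).prodMk contDiff_snd.contDiffOn
  exact ⟨⟨ContDiff.comp_contDiffOn (g := fun q : (ℝ × ℝ) × ℝ => sh0 q.1 q.2) contDiff_sh.1 hc,
      fun x _ => (sh_per (P.c x)).1⟩,
    ⟨ContDiff.comp_contDiffOn (g := fun q : (ℝ × ℝ) × ℝ => sh1 q.1 q.2) contDiff_sh.2.1 hc,
      fun x _ => (sh_per (P.c x)).2.1⟩,
    ⟨ContDiff.comp_contDiffOn (g := fun q : (ℝ × ℝ) × ℝ => sh2 q.1 q.2) contDiff_sh.2.2 hc,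
      fun x _ => (sh_per (P.c x)).2.2⟩⟩

theorem smooth_m0 (h : P.OK) : ContDiffOn ℝ ∞ P.m0 P.base.Ω :=
  Smooth2.mean (f := fun x s => sh0 (P.c x) s) h.open_ (sp_sh h).1.smooth

theorem smooth_gap (h : P.OK) : ContDiffOn ℝ ∞ (fun x => gap1 (P.c x)) P.base.Ω ∧
    ContDiffOn ℝ ∞ (fun x => gap2 (P.c x)) P.base.Ω :=
  ⟨Smooth2.mean (f := fun x s => 1 - sh1 (P.c x) s * sh1 (P.c x) s) h.open_
      (contDiffOn_const.sub ((sp_sh h).2.1.smooth.mul (sp_sh h).2.1.smooth)),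
    Smooth2.mean (f := fun x s => 1 - sh2 (P.c x) s * sh2 (P.c x) s) h.open_
      (contDiffOn_const.sub ((sp_sh h).2.2.smooth.mul (sp_sh h).2.2.smooth))⟩

omit [FiniteDimensional ℝ E] in
theorem sp_unit (h : P.OK) : SP P.base.Ω P.unit := by
  obtain ⟨s0, s1, s2⟩ := sp_sh h
  exact ⟨((s0.smooth.smul (Smooth2.of_fst (smooth_aP h).2)).add
      (s1.smooth.smul (Smooth2.of_fst h.smoothL1))).add
      (s2.smooth.smul (Smooth2.of_fst h.smoothL2)),
    fun x hx s => by simp only [unit, s0.per x hx s, s1.per x hx s, s2.per x hx s]⟩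

omit [FiniteDimensional ℝ E] in
theorem ip_unit (h : P.OK) {x : E} (hx : x ∈ P.base.Ω) (s : ℝ) :
    ip (P.base.Ze x) (P.unit x s) = 0 ∧ ip (P.unit x s) (P.unit x s) = 1 ∧
      ip (P.unit x s) (P.L1 x) = sh1 (P.c x) s ∧ ip (P.unit x s) (P.L2 x) = sh2 (P.c x) s ∧
      ip (P.unit x s) (P.tauP x) = sh0 (P.c x) s := by
  obtain ⟨-, h0, hE0, h01, h02, -⟩ := frame h hx
  have := sh_sq (P.c x) s
  simp [unit, hE0, h.ortE1 x hx, h.ortE2 x hx, h0, h01, h02, h.unit1 x hx, h.unit2 x hx,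
    h.ort12 x hx, ip_comm (P.L1 x) (P.tauP x), ip_comm (P.L2 x) (P.tauP x),
    ip_comm (P.L2 x) (P.L1 x)]
  linear_combination this

omit [FiniteDimensional ℝ E] in
/-- Means of the direction and of its products with the normal components. -/
theorem mean_unit (x : E) :
    mean (P.unit x) = P.m0 x • P.tauP x ∧
      mean (fun s => sh1 (P.c x) s • P.unit x s) = (1 - gap1 (P.c x)) • P.L1 x ∧
      mean (fun s => sh2 (P.c x) s • P.unit x s) = (1 - gap2 (P.c x)) • P.L2 x := by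
  obtain ⟨c0, c1, c2⟩ := continuous_sh (P.c x)
  obtain ⟨m1, m01, m12⟩ := mean_sh1 (P.c x)
  obtain ⟨m2, m02⟩ := mean_sh2 (P.c x)
  obtain ⟨g1, g2⟩ := mean_sq_sh (P.c x)
  have key : ∀ {f g k : ℝ → ℝ}, Continuous f → Continuous g → Continuous k →
      mean (fun s => f s • P.tauP x + g s • P.L1 x + k s • P.L2 x) =
        mean f • P.tauP x + mean g • P.L1 x + mean k • P.L2 x := fun hf hg hk => by
    rw [mean_add (by fun_prop) (by fun_prop), mean_add (by fun_prop) (by fun_prop),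
      mean_smul_const, mean_smul_const, mean_smul_const]
  refine ⟨?_, ?_, ?_⟩
  · rw [show P.unit x = _ from rfl]
    unfold unit
    rw [key c0 c1 c2, m1, m2, zero_smul, zero_smul, add_zero, add_zero]
    rfl
  · simp only [unit, smul_add, smul_smul]
    rw [key (f := fun s => sh1 (P.c x) s * sh0 (P.c x) s) (g := fun s => sh1 (P.c x) s * sh1 (P.c x) s)
      (k := fun s => sh1 (P.c x) s * sh2 (P.c x) s) (c1.mul c0) (c1.mul c1) (c1.mul c2), g1, m12]
    simp [mul_comm, m01]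
  · simp only [unit, smul_add, smul_smul]
    rw [key (f := fun s => sh2 (P.c x) s * sh0 (P.c x) s) (g := fun s => sh2 (P.c x) s * sh1 (P.c x) s)
      (k := fun s => sh2 (P.c x) s * sh2 (P.c x) s) (c2.mul c0) (c2.mul c1) (c2.mul c2), g2]
    simp [mul_comm, m02, m12]

/-- **A shaped free profile satisfies the hypotheses of the recursion.** -/
theorem good (h : P.OK) : P.data.Good := by
  obtain ⟨s0, s1, s2⟩ := sp_sh h
  have hu := sp_unit h
  have hm := smooth_m0 h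
  obtain ⟨hg1, hg2⟩ := smooth_gap h
  have hmne : ∀ x ∈ P.base.Ω, P.m0 x ≠ 0 := fun x hx => (h.m0_pos x hx).ne'
  have hlen : ContDiffOn ℝ ∞ P.len P.base.Ω := (smooth_aP h).1.div hm hmne
  have hf1 : Smooth2 P.base.Ω P.fix1 :=
    (Smooth2.of_fst (contDiffOn_const.div hg1 fun x _ => (gap_pos _).1.ne')).smul
      ((Smooth2.of_fst h.smoothL1).sub (s1.smooth.smul hu.smooth))
  have hf2 : Smooth2 P.base.Ω P.fix2 :=
    (Smooth2.of_fst (contDiffOn_const.div hg2 fun x _ => (gap_pos _).2.ne')).smul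
      ((Smooth2.of_fst h.smoothL2).sub (s2.smooth.smul hu.smooth))
  have hlsq : ∀ x ∈ P.base.Ω, P.data.lsq x = P.len x ^ 2 := fun x hx => by
    simp [Data.lsq, data, (ip_unit h hx 0).2.1, pow_two]
  refine ⟨h.open_, h.smoothZ, h.smoothErr, h.perErr, h.zz_pos, ?_, ?_, ?_, ?_, ?_,
    fun i => ?_, ?_, ?_, ?_⟩
  · exact ⟨(Smooth2.of_fst hlen).smul hu.smooth, fun x hx s => by
      simp only [data, hu.per x hx s]⟩
  · intro x hx s
    simp [data, (ip_unit h hx s).1]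
  · intro x hx
    show mean (fun s => P.len x • P.unit x s) = P.pvec x
    rw [mean_smul, (mean_unit (P := P) x).1, smul_smul, len, div_mul_cancel₀ _ (hmne x hx),
      (frame h hx).2.2.2.2.2]
  · intro x hx s
    rw [hlsq x hx]
    simp [data, (ip_unit h hx s).2.1, pow_two]
  · intro x hx
    rw [hlsq x hx]
    have := div_pos (frame h hx).1 (h.m0_pos x hx)
    unfold len
    positivity
  · have ht := contDiffOn_pi.1 (smooth_aP h).2 i
    refine ⟨(((Smooth2.of_fst (ht.div hm hmne)).smul hu.smooth).add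
      ((Smooth2.of_fst (contDiffOn_pi.1 h.smoothL1 i)).smul hf1)).add
      ((Smooth2.of_fst (contDiffOn_pi.1 h.smoothL2 i)).smul hf2), fun x hx s => ?_⟩
    simp only [data, fix1, fix2, hu.per x hx s, s1.per x hx s, s2.per x hx s]
  · intro i x hx s
    simp [data, fix1, fix2, (ip_unit h hx s).1, h.ortE1 x hx, h.ortE2 x hx]
  · intro i x hx
    have cu := hu.cont hx
    have c1 := (continuous_sh (P.c x)).2.1
    have c2 := (continuous_sh (P.c x)).2.2
    obtain ⟨u0, u1, u2⟩ := mean_unit (P := P) x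
    have g1 := (gap_pos (P.c x)).1.ne'
    have g2 := (gap_pos (P.c x)).2.ne'
    have e1 : mean (P.fix1 x) = P.L1 x := by
      unfold fix1
      rw [mean_smul, mean_sub continuous_const (by fun_prop), mean_const, u1, sub_smul, one_smul, sub_sub_cancel,
        smul_smul, show 1 / gap1 (P.c x) * gap1 (P.c x) = 1 by field_simp, one_smul]
    have e2 : mean (P.fix2 x) = P.L2 x := by
      unfold fix2
      rw [mean_smul, mean_sub continuous_const (by fun_prop), mean_const, u2, sub_smul, one_smul, sub_sub_cancel,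
        smul_smul, show 1 / gap2 (P.c x) * gap2 (P.c x) = 1 by field_simp, one_smul]
    have cf1 : Continuous (P.fix1 x) := by unfold fix1; fun_prop
    have cf2 : Continuous (P.fix2 x) := by unfold fix2; fun_prop
    show mean (fun s => (P.tauP x i / P.m0 x) • P.unit x s + P.L1 x i • P.fix1 x s +
      P.L2 x i • P.fix2 x s) = _
    rw [mean_add (by fun_prop) (by fun_prop), mean_add (by fun_prop) (by fun_prop), mean_smul,
      mean_smul, mean_smul, e1, e2, u0, smul_smul, div_mul_cancel₀ _ (hmne x hx)]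
    exact frame_sum h hx i
  · intro i x hx s
    have key : ∀ r, ip (P.data.T x r) (P.data.Phi i x r) = P.len x * (P.tauP x i / P.m0 x) :=
      fun r => by
        obtain ⟨-, u, u1, u2, -⟩ := ip_unit h hx r
        simp [data, fix1, fix2, u, u1, u2]
        ring
    rw [Data.kap, key, key]

omit [FiniteDimensional ℝ E] in
/-- The square of the amplitude. -/
theorem amp2_eq (h : P.OK) {x : E} (hx : x ∈ P.base.Ω) :
    P.data.amp2 x = P.len x ^ 2 - P.aP x ^ 2 := by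
  have hpv : P.data.pv x = P.pvec x := rfl
  rw [Data.amp2, hpv, aP, Real.sq_sqrt (h.pp_pos x hx).le]
  simp [Data.lsq, data, (ip_unit h hx 0).2.1, pow_two]

omit [FiniteDimensional ℝ E] in
/-- Where the shape is trivial, so is the profile. -/
theorem T_trivial (h : P.OK) {x : E} (hx : x ∈ P.base.Ω) (hc : P.c x = 0) (s : ℝ) :
    P.data.T x s = P.data.pv x := by
  have e0 : ∀ r, sh0 (P.c x) r = 1 := fun r => by simp [hc, sh0, den, crv1, crv2]
  have hm : P.m0 x = 1 := by simp [m0, funext e0]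
  show P.len x • P.unit x s = P.pvec x
  simp only [len, hm, unit, e0, div_one, sh1, sh2, crv1, crv2]
  simp [hc, (frame h hx).2.2.2.2.2]

/-- The parameters realising the amplitude `ρ` over the old speed `a`, with twist `μ`. -/
def shapeOf (μ a ρ : ℝ) : ℝ × ℝ :=
  (ρ * Real.sqrt (3 * Real.sqrt (a ^ 2 + ρ ^ 2) + a) /
    Real.sqrt ((Real.sqrt (a ^ 2 + ρ ^ 2) + a) ^ 3), μ)

theorem mean_shapeOf {a : ℝ} (ha : 0 < a) (μ ρ : ℝ) :
    mean (sh0 (shapeOf μ a ρ)) = a / Real.sqrt (a ^ 2 + ρ ^ 2) := by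
  rw [shapeOf, mean_sh0]
  set l := Real.sqrt (a ^ 2 + ρ ^ 2) with hl
  have hl0 : 0 < l := Real.sqrt_pos.2 (by positivity)
  have hl2 : l ^ 2 = a ^ 2 + ρ ^ 2 := Real.sq_sqrt (by positivity)
  have e1 : 1 + (ρ * Real.sqrt (3 * l + a) / Real.sqrt ((l + a) ^ 3)) ^ 2 =
      (2 * l / (l + a)) ^ 2 := by
    rw [div_pow, mul_pow, Real.sq_sqrt (by positivity), Real.sq_sqrt (by positivity)]
    field_simp
    linear_combination (-3 * l - a) * hl2
  rw [e1, Real.sqrt_sq (by positivity)]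
  field_simp
  ring

theorem contDiffAt_shapeOf (μ : ℝ) {p : ℝ × ℝ} (hp : 0 < p.1) :
    ContDiffAt ℝ ∞ (fun q : ℝ × ℝ => shapeOf μ q.1 q.2) p := by
  have hl : 0 < Real.sqrt (p.1 ^ 2 + p.2 ^ 2) := Real.sqrt_pos.2 (by positivity)
  have h1 : ContDiffAt ℝ ∞ (fun q : ℝ × ℝ => Real.sqrt (q.1 ^ 2 + q.2 ^ 2)) p :=
    ((contDiffAt_fst.pow 2).add (contDiffAt_snd.pow 2)).sqrt (by positivity)
  refine ContDiffAt.prodMk ?_ contDiffAt_const
  exact (contDiffAt_snd.mul (((contDiffAt_const.mul h1).add contDiffAt_fst).sqrt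
    (by positivity))).div (((h1.add contDiffAt_fst).pow 3).sqrt (by positivity))
    (Real.sqrt_pos.2 (by positivity)).ne'

omit [FiniteDimensional ℝ E] in
theorem m0_shapeOf (h : P.OK) {x : E} (hx : x ∈ P.base.Ω) {μ ρ : ℝ}
    (hc : P.c x = shapeOf μ (P.aP x) ρ) : P.len x = Real.sqrt (P.aP x ^ 2 + ρ ^ 2) := by
  have ha := (frame h hx).1
  rw [len, m0, hc, mean_shapeOf ha, div_div_cancel₀ ha.ne']

omit [FiniteDimensional ℝ E] in
/-- With these parameters the square of the amplitude is `ρ²`. -/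
theorem amp2_shapeOf (h : P.OK) {x : E} (hx : x ∈ P.base.Ω) {μ ρ : ℝ}
    (hc : P.c x = shapeOf μ (P.aP x) ρ) : P.data.amp2 x = ρ ^ 2 := by
  rw [amp2_eq h hx, m0_shapeOf h hx hc, Real.sq_sqrt (by positivity)]
  ring

omit [FiniteDimensional ℝ E] in
/-- The derivative of the velocity in the fast variable. -/
theorem deriv_T (h : P.OK) {x : E} (hx : x ∈ P.base.Ω) (s : ℝ) :
    deriv (P.data.T x) s = P.len x • (deriv (sh0 (P.c x)) s • P.tauP x +
      deriv (sh1 (P.c x)) s • P.L1 x + deriv (sh2 (P.c x)) s • P.L2 x) := by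
  have hd : ∀ {f : ℝ → ℝ}, ContDiff ℝ ∞ f → HasDerivAt f (deriv f s) s :=
    fun hf => ((hf.differentiable (by simp)) s).hasDerivAt
  obtain ⟨s0, s1, s2⟩ := sp_sh h
  have hs := fun {g : E → ℝ → ℝ} (hg : SP P.base.Ω g) => hd (contDiffOn_univ.1
    (hg.smooth.comp (contDiff_prodMk_right x).contDiffOn fun _ _ => ⟨hx, trivial⟩))
  exact (((((hs s0).smul_const _).add ((hs s1).smul_const _)).add
    ((hs s2).smul_const _)).const_smul (P.len x)).deriv

omit [FiniteDimensional ℝ E] in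
/-- **The velocity turns at speed at least `μ |ρ| / 3`**, whatever the fast variable. -/
theorem deriv_T_ge (h : P.OK) {x : E} (hx : x ∈ P.base.Ω) {μ ρ : ℝ} (hμ : μ ^ 2 ≤ 2)
    (hc : P.c x = shapeOf μ (P.aP x) ρ) (s : ℝ) :
    (μ * ρ / 3) ^ 2 ≤ ip (deriv (P.data.T x) s) (deriv (P.data.T x) s) := by
  obtain ⟨ha, h0, -, h01, h02, -⟩ := frame h hx
  have e : ip (deriv (P.data.T x) s) (deriv (P.data.T x) s) =
      P.len x ^ 2 * speed2 (P.c x) s := by
    simp [deriv_T h hx, speed2, h0, h01, h02, h.unit1 x hx, h.unit2 x hx, h.ort12 x hx,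
      ip_comm (P.L1 x) (P.tauP x), ip_comm (P.L2 x) (P.tauP x), ip_comm (P.L2 x) (P.L1 x)]
    ring
  rw [e]
  refine le_trans ?_ (mul_le_mul_of_nonneg_left (speed2_ge (by rw [hc]; exact hμ) s) (sq_nonneg _))
  rw [m0_shapeOf h hx hc, hc]
  set a := P.aP x
  set l := Real.sqrt (a ^ 2 + ρ ^ 2) with hl
  have hl0 : 0 < l := Real.sqrt_pos.2 (by positivity)
  have hl2 : l ^ 2 = a ^ 2 + ρ ^ 2 := Real.sq_sqrt (by positivity)
  set m := ρ * Real.sqrt (3 * l + a) / Real.sqrt ((l + a) ^ 3) with hm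
  have em : m ^ 2 = ρ ^ 2 * (3 * l + a) / (l + a) ^ 3 := by
    rw [hm, div_pow, mul_pow, Real.sq_sqrt (by positivity), Real.sq_sqrt (by positivity)]
  have e1 : 1 + m ^ 2 = (2 * l / (l + a)) ^ 2 := by
    rw [em]
    field_simp
    linear_combination (-3 * l - a) * hl2
  show (μ * ρ / 3) ^ 2 ≤ l ^ 2 * (μ ^ 2 * (m / (1 + m ^ 2)) ^ 2)
  rw [div_pow m, e1, em]
  field_simp
  nlinarith [mul_nonneg (mul_nonneg (sq_nonneg μ) (sq_nonneg ρ)) (sq_nonneg l),
    mul_nonneg (mul_nonneg (sq_nonneg μ) (sq_nonneg ρ)) (mul_nonneg ha.le hl0.le),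
    mul_nonneg (mul_nonneg (sq_nonneg μ) (sq_nonneg ρ)) (sq_nonneg a)]

/-- The free wave over a unit normal: `L₂ = n`, `L₁` the other unit normal. -/
def ofNormal (W : Wave.Data E) (n : E → V4) (μ : ℝ) : Prof E :=
  let P₀ : Prof E := ⟨W, fun x => (1 / Real.sqrt (gram2 (W.Ze x) (W.Zv x))) •
    cross (W.Ze x) (W.Zv x) (n x), n, fun _ => 0⟩
  { P₀ with c := fun x => shapeOf μ (P₀.aP x) (W.rho x) }

omit [FiniteDimensional ℝ E] in
/-- The hypotheses hold for an immersion with a unit normal, whatever the amplitude. -/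
theorem ok_ofNormal {W : Wave.Data E} {n : E → V4} (μ : ℝ) (hΩ : IsOpen W.Ω)
    (hZ : ContDiffOn ℝ ∞ W.Z W.Ω) (hρ : ContDiffOn ℝ ∞ W.rho W.Ω)
    (hE : ∀ k i, Smooth2 W.Ω fun x s => W.Err k x s i)
    (hEp : ∀ k, ∀ x ∈ W.Ω, ∀ i, Function.Periodic (fun s => W.Err k x s i) (2 * π))
    (hn : ContDiffOn ℝ ∞ n W.Ω) (himm : ∀ x ∈ W.Ω, 0 < gram2 (W.Ze x) (W.Zv x))
    (hun : ∀ x ∈ W.Ω, ip (n x) (n x) = 1 ∧ ip (n x) (W.Ze x) = 0 ∧ ip (n x) (W.Zv x) = 0) :
    (ofNormal W n μ).OK := by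
  have he := contDiffOn_D hΩ hZ W.e
  have hv := contDiffOn_D hΩ hZ W.v
  have hzz : ∀ x ∈ W.Ω, 0 < ip (W.Ze x) (W.Ze x) := fun x hx => by
    refine lt_of_le_of_ne (Finset.sum_nonneg fun i _ => mul_self_nonneg _) fun h0 => ?_
    have := himm x hx
    rw [gram2, ← h0] at this
    nlinarith [sq_nonneg (ip (W.Ze x) (W.Zv x))]
  have hpp : ∀ x ∈ W.Ω, 0 < ip ((ofNormal W n μ).pvec x) ((ofNormal W n μ).pvec x) := fun x hx => by
    have hz := hzz x hx
    have e : ip ((ofNormal W n μ).pvec x) ((ofNormal W n μ).pvec x) =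
        gram2 (W.Ze x) (W.Zv x) / ip (W.Ze x) (W.Ze x) := by
      simp [pvec, ofNormal, gram2, ip_comm (W.Zv x) (W.Ze x)]
      field_simp
      ring
    rw [e]
    exact div_pos (himm x hx) hz
  have hap : ∀ x ∈ W.Ω, 0 < (ofNormal W n μ).aP x := fun x hx => Real.sqrt_pos.2 (hpp x hx)
  have hc : ContDiffOn ℝ ∞ (fun x => cross (W.Ze x) (W.Zv x) (n x)) W.Ω := by
    refine contDiffOn_pi.2 fun i => ?_
    have h1 := contDiffOn_pi.1 he
    have h2 := contDiffOn_pi.1 hv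
    have h3 := contDiffOn_pi.1 hn
    unfold Data.Ze Data.Zv
    fin_cases i <;> simp [cross] <;> fun_prop
  have hg : ContDiffOn ℝ ∞ (fun x => gram2 (W.Ze x) (W.Zv x)) W.Ω :=
    ((contDiffOn_ip he he).mul (contDiffOn_ip hv hv)).sub ((contDiffOn_ip he hv).pow 2)
  refine ⟨hΩ, hZ, hE, hEp, hzz, hpp, ?_, hn, ?_, fun x hx => ?_, fun x hx => (hun x hx).1,
    fun x hx => ?_, fun x hx => ?_, fun x hx => ?_, fun x hx => ?_, fun x hx => ?_, fun x hx => ?_⟩
  · exact (contDiffOn_const.div (hg.sqrt fun x hx => (himm x hx).ne')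
      fun x hx => (Real.sqrt_pos.2 (himm x hx)).ne').smul hc
  · have hp : ContDiffOn ℝ ∞ (ofNormal W n μ).pvec W.Ω :=
      hv.sub (((contDiffOn_ip hv he).div (contDiffOn_ip he he) fun x hx => (hzz x hx).ne').smul he)
    have ha : ContDiffOn ℝ ∞ (ofNormal W n μ).aP W.Ω :=
      (contDiffOn_ip hp hp).sqrt fun x hx => (hpp x hx).ne'
    exact fun x hx => (contDiffAt_shapeOf μ (hap x hx)).comp_contDiffWithinAt
      (f := fun y => ((ofNormal W n μ).aP y, W.rho y)) x ((ha.prodMk hρ) x hx)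
  · obtain ⟨u, u1, u2⟩ := hun x hx
    have hg0 := himm x hx
    have hs := Real.sq_sqrt hg0.le
    simp [ofNormal, ip_cross_self, u, ip_comm (W.Ze x) (n x), ip_comm (W.Zv x) (n x), u1, u2]
    field_simp
    linear_combination -hs
  · obtain ⟨-, -, h3⟩ := ip_cross (W.Ze x) (W.Zv x) (n x)
    simp [ofNormal, ip_comm _ (n x), h3]
  · simp [ofNormal, (ip_cross (W.Ze x) (W.Zv x) (n x)).1]
  · exact (ip_comm _ _).trans (hun x hx).2.1
  · simp [ofNormal, (ip_cross (W.Ze x) (W.Zv x) (n x)).2.1]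
  · exact (ip_comm _ _).trans (hun x hx).2.2
  · show 0 < mean (sh0 (shapeOf μ ((ofNormal W n μ).aP x) (W.rho x)))
    rw [mean_shapeOf (hap x hx)]
    exact div_pos (hap x hx) (Real.sqrt_pos.2 (by have := hap x hx; positivity))

end Prof

end Vale.Agent.P205.Free
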