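import Vale.Agent.P205.Wave.Correct

/-!
A free wave to every order. It needs no condition on the second fundamental form: it realises
the prescribed `ve` and `vv` terms, and leaves an oscillating multiple of `de²` which a later
wave takes. The profile is abstract: a velocity of constant length in `(Z_e)^⊥` and a field
`Phi` which removes means.
-/

noncomputable section

open Set Finset Real
open scoped ContDiff

namespace Vale.Agent.P205.Free

open Wave

variable {E : Type} [NormedAddCommGroup E] [NormedSpace ℝ E] [FiniteDimensional ℝ E]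

/-- The data of one free wave in a chart. The field `rho` of `Wave.Data` is not used. -/
structure Data (E : Type) [NormedAddCommGroup E] [NormedSpace ℝ E] extends Wave.Data E where
  /-- The profile: the velocity without its component along `Z_e`. -/
  T : E → ℝ → V4
  /-- The fields which remove the means. -/
  Phi : Fin 4 → E → ℝ → V4

namespace Data

variable (W : Data E)

def zz (x : E) : ℝ := ip (W.toData.Ze x) (W.toData.Ze x)
/-- The part of `Z_v` orthogonal to `Z_e`. -/
def pv (x : E) : V4 :=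
  W.toData.Zv x - (ip (W.toData.Zv x) (W.toData.Ze x) / W.zz x) • W.toData.Ze x
def lsq (x : E) : ℝ := ip (W.T x 0) (W.T x 0)
def kap (i : Fin 4) (x : E) : ℝ := ip (W.T x 0) (W.Phi i x 0)
/-- The square of the amplitude. -/
def amp2 (x : E) : ℝ := W.lsq x - ip (W.pv x) (W.pv x)
def vel (x : E) (s : ℝ) : V4 := W.toData.Zv x + (W.T x s - W.pv x)
def Y1 (x : E) : ℝ → V4 := prim fun s => W.T x s - W.pv x
def gvv (Y : ℕ → E → ℝ → V4) (n : ℕ) (x : E) (s : ℝ) : ℝ :=
  (W.Err n x s 2 - W.toData.coefVV Y n x s) / 2 -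
    ip (W.toData.Zv x) (W.toData.Ze x) / W.zz x * W.toData.du1 Y n x s
def mvec (Y : ℕ → E → ℝ → V4) (n : ℕ) (x : E) : V4 :=
  (1 / W.lsq x) • mean fun s => W.gvv Y n x s • W.T x s
/-- The fast derivative of the part orthogonal to `Z_e`. -/
def dq (Y : ℕ → E → ℝ → V4) (n : ℕ) (x : E) (s : ℝ) : V4 :=
  (W.gvv Y n x s / W.lsq x) • W.T x s - ∑ i, W.mvec Y n x i • W.Phi i x s
/-- The corrector of order `n + 1`. -/
def step (Y : ℕ → E → ℝ → V4) (n : ℕ) (x : E) (s : ℝ) : V4 :=
  (W.toData.u1 Y n x s / W.zz x) • W.toData.Ze x + prim (W.dq Y n x) s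

/-- The correctors up to order `n`, zero beyond. -/
def upTo : ℕ → ℕ → E → ℝ → V4
  | 0 => fun _ _ _ => 0
  | 1 => Function.update (fun _ _ _ => 0) 1 W.Y1
  | n + 2 => Function.update (upTo (n + 1)) (n + 2) (W.step (upTo (n + 1)) (n + 1))

/-- The term left to a later wave in order `n`. -/
def oscEE (N n : ℕ) (x : E) (s : ℝ) : ℝ :=
  W.toData.coefEE (W.upTo (N + 1)) n x s - W.Err n x s 0 -
    mean fun r => W.toData.coefEE (W.upTo (N + 1)) n x r - W.Err n x r 0

/-- The data stays in the class where the recursion works. -/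
structure Good : Prop where
  open_ : IsOpen W.Ω
  smoothZ : ContDiffOn ℝ ∞ W.Z W.Ω
  smoothErr : ∀ n i, Smooth2 W.Ω fun x s => W.Err n x s i
  perErr : ∀ n, ∀ x ∈ W.Ω, ∀ i, Function.Periodic (fun s => W.Err n x s i) (2 * π)
  zz_pos : ∀ x ∈ W.Ω, 0 < W.zz x
  spT : SP W.Ω W.T
  ortT : ∀ x ∈ W.Ω, ∀ s, ip (W.toData.Ze x) (W.T x s) = 0
  meanT : ∀ x ∈ W.Ω, mean (W.T x) = W.pv x
  normT : ∀ x ∈ W.Ω, ∀ s, ip (W.T x s) (W.T x s) = W.lsq x
  lsq_pos : ∀ x ∈ W.Ω, 0 < W.lsq x
  spPhi : ∀ i, SP W.Ω (W.Phi i)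
  ortPhi : ∀ i, ∀ x ∈ W.Ω, ∀ s, ip (W.toData.Ze x) (W.Phi i x s) = 0
  meanPhi : ∀ i, ∀ x ∈ W.Ω, mean (W.Phi i x) =
    Pi.single i 1 - (W.toData.Ze x i / W.zz x) • W.toData.Ze x
  ipPhi : ∀ i, ∀ x ∈ W.Ω, ∀ s, ip (W.T x s) (W.Phi i x s) = W.kap i x

variable {W}

omit [FiniteDimensional ℝ E] in
theorem smooth_Ze (h : W.Good) : ContDiffOn ℝ ∞ W.toData.Ze W.Ω :=
  contDiffOn_D h.open_ h.smoothZ _
omit [FiniteDimensional ℝ E] in
theorem smooth_Zv (h : W.Good) : ContDiffOn ℝ ∞ W.toData.Zv W.Ω :=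
  contDiffOn_D h.open_ h.smoothZ _
omit [FiniteDimensional ℝ E] in
theorem smooth_zz (h : W.Good) : ContDiffOn ℝ ∞ W.zz W.Ω :=
  contDiffOn_ip (smooth_Ze h) (smooth_Ze h)

omit [FiniteDimensional ℝ E] in
theorem smooth_pv (h : W.Good) : ContDiffOn ℝ ∞ W.pv W.Ω :=
  (smooth_Zv h).sub (((contDiffOn_ip (smooth_Zv h) (smooth_Ze h)).div (smooth_zz h)
    fun x hx => (h.zz_pos x hx).ne').smul (smooth_Ze h))

omit [FiniteDimensional ℝ E] in
theorem smooth_lsq (h : W.Good) : ContDiffOn ℝ ∞ W.lsq W.Ω := by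
  have ht : ContDiffOn ℝ ∞ (fun x => W.T x 0) W.Ω :=
    h.spT.smooth.comp (f := fun x => (x, (0 : ℝ))) (contDiff_prodMk_left 0).contDiffOn
      fun _ hx => ⟨hx, trivial⟩
  exact contDiffOn_ip ht ht

omit [FiniteDimensional ℝ E] in
theorem ip_Ze_pv (h : W.Good) {x : E} (hx : x ∈ W.Ω) : ip (W.toData.Ze x) (W.pv x) = 0 := by
  have := (h.zz_pos x hx).ne'
  simp only [pv, ip_sub_right, ip_smul_right, zz, ip_comm (W.toData.Ze x) (W.toData.Zv x)] at *
  field_simp
  ring

omit [FiniteDimensional ℝ E] in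
theorem ip_Ze_vel (h : W.Good) {x : E} (hx : x ∈ W.Ω) (s : ℝ) :
    ip (W.toData.Ze x) (W.vel x s) = ip (W.toData.Zv x) (W.toData.Ze x) := by
  simp [vel, h.ortT x hx s, ip_Ze_pv h hx, ip_comm (W.toData.Zv x)]

omit [FiniteDimensional ℝ E] in
theorem vel_eq (x : E) (s : ℝ) : W.vel x s =
    (ip (W.toData.Zv x) (W.toData.Ze x) / W.zz x) • W.toData.Ze x + W.T x s := by
  simp only [vel, pv]; abel

omit [FiniteDimensional ℝ E] in
theorem sp_de (h : W.Good) {Y : ℕ → E → ℝ → V4} (hY : ∀ j, SP W.Ω (Y j)) (j : ℕ) :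
    SP W.Ω (W.toData.de Y j) := by
  by_cases hj : j = 0
  · have e : W.toData.de Y j = fun x _ => W.toData.Ze x := by
      funext x s; simp [Wave.Data.de, hj]
    exact e ▸ ⟨Smooth2.of_fst (smooth_Ze h), fun _ _ _ => rfl⟩
  · have e : W.toData.de Y j = fun x s => D W.e (fun y => Y j y s) x := by
      funext x s; simp [Wave.Data.de, hj]
    exact e ▸ (hY j).de h.open_ _

omit [FiniteDimensional ℝ E] in
theorem sp_dv (h : W.Good) {Y : ℕ → E → ℝ → V4} (hY : ∀ j, SP W.Ω (Y j)) (j : ℕ) :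
    SP W.Ω (W.toData.dv Y j) := by
  have h2 := (hY (j + 1)).ds h.open_
  by_cases hj : j = 0
  · have e : W.toData.dv Y j = fun x s => W.toData.Zv x + deriv (Y (j + 1) x) s := by
      funext x s; simp [Wave.Data.dv, hj]
    exact e ▸ ⟨(Smooth2.of_fst (smooth_Zv h)).add h2.smooth,
      fun x hx s => by simp only [h2.per x hx s]⟩
  · have e : W.toData.dv Y j = fun x s =>
        D W.v (fun y => Y j y s) x + deriv (Y (j + 1) x) s := by
      funext x s; simp [Wave.Data.dv, hj]
    have h1 := (hY j).de h.open_ W.v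
    exact e ▸ ⟨h1.smooth.add h2.smooth, fun x hx s => by
      simp only [h1.per x hx s, h2.per x hx s]⟩

theorem sp_res1 (h : W.Good) {Y : ℕ → E → ℝ → V4} (hY : ∀ j, SP W.Ω (Y j)) (n : ℕ) :
    SP W.Ω (W.toData.res1 Y n) := by
  have hc := Wave.Data.sp_sum_ip (sp_dv h hY) (sp_de h hY) n
  refine ⟨(h.smoothErr n 1).sub hc.smooth, fun x hx s => ?_⟩
  exact congrArg₂ (· - ·) (h.perErr n x hx 1 s) (hc.per x hx s)

theorem sp_du1 (h : W.Good) {Y : ℕ → E → ℝ → V4} (hY : ∀ j, SP W.Ω (Y j)) (n : ℕ) :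
    SP W.Ω (W.toData.du1 Y n) ∧ ∀ x ∈ W.Ω, mean (W.toData.du1 Y n x) = 0 :=
  Wave.Data.sp_centre h.open_ (sp_res1 h hY n)

theorem sp_gvv (h : W.Good) {Y : ℕ → E → ℝ → V4} (hY : ∀ j, SP W.Ω (Y j)) (n : ℕ) :
    SP W.Ω (W.gvv Y n) := by
  have hc := Wave.Data.sp_sum_ip (sp_dv h hY) (sp_dv h hY) n
  have ha := (sp_du1 h hY n).1
  refine ⟨(((h.smoothErr n 2).sub hc.smooth).div_const 2).sub ((Smooth2.of_fst
    ((contDiffOn_ip (smooth_Zv h) (smooth_Ze h)).div (smooth_zz h)
      fun x hx => (h.zz_pos x hx).ne')).mul ha.smooth), fun x hx s => ?_⟩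
  simp only [gvv]
  rw [show W.toData.coefVV Y n x (s + 2 * π) = W.toData.coefVV Y n x s from hc.per x hx s,
    ha.per x hx s, show W.Err n x (s + 2 * π) 2 = W.Err n x s 2 from h.perErr n x hx 2 s]

theorem smooth_mvec (h : W.Good) {Y : ℕ → E → ℝ → V4} (hY : ∀ j, SP W.Ω (Y j)) (n : ℕ) :
    ContDiffOn ℝ ∞ (W.mvec Y n) W.Ω :=
  (contDiffOn_const.div (smooth_lsq h) fun x hx => (h.lsq_pos x hx).ne').smul
    (Smooth2.mean (f := fun x s => W.gvv Y n x s • W.T x s) h.open_
      ((sp_gvv h hY n).smooth.smul h.spT.smooth))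

omit [FiniteDimensional ℝ E] in
theorem mean_sum4 (c : Fin 4 → ℝ) {f : Fin 4 → ℝ → V4} (hf : ∀ i, Continuous (f i)) :
    mean (fun s => ∑ i, c i • f i s) = ∑ i, c i • mean (f i) := by
  have := hf 0; have := hf 1; have := hf 2; have := hf 3
  simp only [Fin.sum_univ_four]
  rw [mean_add (by fun_prop) (by fun_prop), mean_add (by fun_prop) (by fun_prop),
    mean_add (by fun_prop) (by fun_prop), mean_smul, mean_smul, mean_smul, mean_smul]

theorem ip_sum4 (c : Fin 4 → ℝ) (f : Fin 4 → V4) (a : V4) :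
    ip a (∑ i, c i • f i) = ∑ i, c i * ip a (f i) := by
  simp [Fin.sum_univ_four]

theorem sp_dq (h : W.Good) {Y : ℕ → E → ℝ → V4} (hY : ∀ j, SP W.Ω (Y j)) (n : ℕ) :
    SP W.Ω (W.dq Y n) ∧ ∀ x ∈ W.Ω, mean (W.dq Y n x) = 0 := by
  have hg := sp_gvv h hY n
  have hm := smooth_mvec h hY n
  refine ⟨⟨((hg.smooth.div (Smooth2.of_fst (smooth_lsq h))
      fun p hp => (h.lsq_pos _ hp.1).ne').smul h.spT.smooth).sub
      (ContDiffOn.sum fun i _ => (Smooth2.of_fst (contDiffOn_pi.1 hm i)).smul (h.spPhi i).smooth),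
    fun x hx s => by
      simp only [dq, hg.per x hx s, h.spT.per x hx s, (h.spPhi _).per x hx s]⟩, fun x hx => ?_⟩
  have cg := hg.cont hx
  have cT := h.spT.cont hx
  have cP := fun i => (h.spPhi i).cont hx
  unfold dq
  rw [mean_sub (by fun_prop) (by fun_prop), mean_sum4 _ cP]
  have e : (fun s => (W.gvv Y n x s / W.lsq x) • W.T x s) =
      fun s => (1 / W.lsq x) • (W.gvv Y n x s • W.T x s) := by
    funext s; rw [smul_smul]; ring_nf
  rw [e, mean_smul]
  set m := W.mvec Y n x with hmdef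
  rw [show (1 / W.lsq x) • mean (fun s => W.gvv Y n x s • W.T x s) = m from rfl]
  have hort : ip (W.toData.Ze x) m = 0 := by
    rw [hmdef, mvec, ip_smul_right, ← Wave.Data.mean_ip (by fun_prop)]
    simp [h.ortT x hx, mean]
  simp only [h.meanPhi _ x hx]
  funext j
  simp only [ip, Fin.sum_univ_four] at hort
  simp only [Pi.sub_apply, Fin.sum_univ_four, Pi.zero_apply]
  have hz := (h.zz_pos x hx).ne'
  fin_cases j <;> simp <;> field_simp
  · linear_combination W.toData.Ze x 0 * hort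
  · linear_combination W.toData.Ze x 1 * hort
  · linear_combination W.toData.Ze x 2 * hort
  · linear_combination W.toData.Ze x 3 * hort

theorem sp_step (h : W.Good) {Y : ℕ → E → ℝ → V4} (hY : ∀ j, SP W.Ω (Y j)) (n : ℕ) :
    SP W.Ω (W.step Y n) := by
  obtain ⟨hd, hd0⟩ := sp_du1 h hY n
  have hu : SP W.Ω (W.toData.u1 Y n) := hd.prim h.open_ hd0
  obtain ⟨hq, hq0⟩ := sp_dq h hY n
  have hp := hq.prim h.open_ hq0
  refine ⟨((hu.smooth.div (Smooth2.of_fst (smooth_zz h)) fun p hp => (h.zz_pos _ hp.1).ne').smul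
    (Smooth2.of_fst (smooth_Ze h))).add hp.smooth, fun x hx s => ?_⟩
  simp only [step, hu.per x hx s, hp.per x hx s]

theorem hasDerivAt_step (h : W.Good) {Y : ℕ → E → ℝ → V4} (hY : ∀ j, SP W.Ω (Y j)) (n : ℕ)
    {x : E} (hx : x ∈ W.Ω) (s : ℝ) :
    HasDerivAt (W.step Y n x)
      ((W.toData.du1 Y n x s / W.zz x) • W.toData.Ze x + W.dq Y n x s) s :=
  (((hasDerivAt_prim ((sp_du1 h hY n).1.cont hx) s).div_const _).smul_const (W.toData.Ze x)).add
    (hasDerivAt_prim ((sp_dq h hY n).1.cont hx) s)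

/-- What holds for the correctors up to order `n`. -/
structure Inv (W : Data E) (Y : ℕ → E → ℝ → V4) (n : ℕ) : Prop where
  one : 1 ≤ n
  sp : ∀ j, SP W.Ω (Y j)
  beyond : ∀ j, n < j → ∀ x s, Y j x s = 0
  dv0 : ∀ x ∈ W.Ω, ∀ s, W.toData.dv Y 0 x s = W.vel x s

/-- The step gives the `ve` and `vv` coefficients of order `n`. -/
theorem step_coef (h : W.Good) {Y : ℕ → E → ℝ → V4} {n : ℕ} (hI : Inv W Y n) {x : E}
    (hx : x ∈ W.Ω) :
    let Y' := Function.update Y (n + 1) (W.step Y n)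
    (∀ s, W.toData.coefVE Y' n x s = W.Err n x s 1 + -mean (W.toData.res1 Y n x) ∧
      W.toData.coefVV Y' n x s =
        W.Err n x s 2 + -2 * ∑ i, W.mvec Y n x i * W.kap i x) ∧
    ∀ s, W.toData.dv Y' 0 x s = W.vel x s := by
  intro Y'
  have hn := hI.one
  have hY := hI.sp
  have same : ∀ j, j ≠ n + 1 → Y' j = Y j := fun j hj => Function.update_of_ne hj _ _
  have zero : ∀ j, n < j → Y j = 0 := fun j hj => by funext y r; exact hI.beyond j hj y r
  have hde : ∀ j, j ≠ n + 1 → ∀ s, W.toData.de Y' j x s = W.toData.de Y j x s := fun j hj s => by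
    simp only [Wave.Data.de, same j hj]
  have hdv : ∀ i, i ≤ n → ∀ s, W.toData.dv Y' i x s =
      W.toData.dv Y i x s + (if i = n then deriv (W.step Y n x) s else 0) := by
    intro i hi s
    by_cases hin : i = n
    · subst hin
      have e1 : Y' (i + 1) = W.step Y i := Function.update_self _ _ _
      have e2 : ∀ r, deriv (Y (i + 1) x) r = 0 := fun r => by simp [zero (i + 1) (by omega)]
      simp only [Wave.Data.dv, e1, e2, same i (by omega), if_true, add_zero]
    · simp only [Wave.Data.dv, same i (by omega), same (i + 1) (by omega), hin, if_false, add_zero]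
  have dv0 : ∀ s, W.toData.dv Y' 0 x s = W.vel x s := fun s => by
    rw [hdv 0 (Nat.zero_le _), if_neg (by omega), add_zero, hI.dv0 x hx]
  refine ⟨fun s => ⟨?_, ?_⟩, dv0⟩
  · have e : W.toData.coefVE Y' n x s =
        W.toData.coefVE Y n x s + ip (deriv (W.step Y n x) s) (W.toData.Ze x) := by
      simp only [Wave.Data.coefVE]
      rw [sum_congr rfl fun i hi => by
        have := mem_range.1 hi
        rw [hdv i (by omega), hde (n - i) (by omega), ip_add_left]]
      rw [sum_add_distrib, sum_eq_single_of_mem (f := fun i =>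
        ip (if i = n then deriv (W.step Y n x) s else 0) (W.toData.de Y (n - i) x s)) n (by simp)
        (fun i _ hne => by rw [if_neg hne, ip_zero_left])]
      simp [Wave.Data.de]
    have hq : ip (W.toData.Ze x) (W.dq Y n x s) = 0 := by
      rw [dq, ip_sub_right, ip_smul_right, h.ortT x hx, ip_sum4]
      simp [h.ortPhi _ x hx]
    rw [e, (hasDerivAt_step h hY n hx s).deriv, ip_comm _ (W.toData.Ze x), ip_add_right,
      ip_smul_right, hq, add_zero, ← zz, div_mul_cancel₀ _ (h.zz_pos x hx).ne']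
    simp only [Wave.Data.du1, Wave.Data.res1]
    ring
  · have e : W.toData.coefVV Y' n x s =
        W.toData.coefVV Y n x s + 2 * ip (W.vel x s) (deriv (W.step Y n x) s) := by
      simp only [Wave.Data.coefVV]
      rw [sum_congr rfl fun i hi => by
        have := mem_range.1 hi
        rw [hdv i (by omega), hdv (n - i) (by omega), ip_add_left, ip_add_right, ip_add_right]]
      simp only [sum_add_distrib]
      rw [sum_eq_single_of_mem (f := fun i => ip (W.toData.dv Y i x s)
            (if n - i = n then deriv (W.step Y n x) s else 0)) 0 (by simp)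
          (fun i hi hne => by have := mem_range.1 hi; rw [if_neg (by omega), ip_zero_right]),
        sum_eq_single_of_mem (f := fun i => ip (if i = n then deriv (W.step Y n x) s else 0)
            (W.toData.dv Y (n - i) x s)) n (by simp)
          (fun i _ hne => by rw [if_neg hne, ip_zero_left]),
        sum_eq_zero (f := fun i => ip (if i = n then deriv (W.step Y n x) s else 0)
            (if n - i = n then deriv (W.step Y n x) s else 0))
          (fun i hi => by
            by_cases hin : i = n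
            · rw [if_neg (show ¬n - i = n by omega), ip_zero_right]
            · rw [if_neg hin, ip_zero_left])]
      simp only [Nat.sub_zero, Nat.sub_self, if_true, hI.dv0 x hx, ip_comm (deriv _ s), add_zero]
      ring
    have hq : ip (W.vel x s) (W.dq Y n x s) =
        W.gvv Y n x s - ∑ i, W.mvec Y n x i * W.kap i x := by
      have h0 : ip (W.toData.Ze x) (W.dq Y n x s) = 0 := by
        rw [dq, ip_sub_right, ip_smul_right, h.ortT x hx, ip_sum4]
        simp [h.ortPhi _ x hx]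
      rw [vel_eq, ip_add_left, ip_smul_left, h0, mul_zero, zero_add, dq, ip_sub_right,
        ip_smul_right, h.normT x hx, div_mul_cancel₀ _ (h.lsq_pos x hx).ne', ip_sum4]
      simp only [h.ipPhi _ x hx]
    rw [e, (hasDerivAt_step h hY n hx s).deriv, ip_add_right, ip_smul_right,
      ip_comm (W.vel x s) (W.toData.Ze x), ip_Ze_vel h hx, hq, gvv]
    ring

theorem sp_Y1 (h : W.Good) : SP W.Ω W.Y1 := by
  refine SP.prim h.open_ ⟨h.spT.smooth.sub (Smooth2.of_fst (smooth_pv h)),
    fun x hx s => by simp only [h.spT.per x hx s]⟩ fun x hx => ?_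
  rw [mean_sub (h.spT.cont hx) continuous_const, mean_const, h.meanT x hx, sub_self]

theorem inv_upTo (h : W.Good) : ∀ m, Inv W (W.upTo (m + 1)) (m + 1) := by
  intro m
  induction m with
  | zero =>
    have e1 : W.upTo 1 1 = W.Y1 := Function.update_self _ _ _
    have e : ∀ j, j ≠ 1 → W.upTo 1 j = fun _ _ => 0 := fun j hj => Function.update_of_ne hj _ _
    refine ⟨le_rfl, fun j => ?_, fun j hj x s => by rw [e j (by omega)], fun x hx s => ?_⟩
    · rcases eq_or_ne j 1 with rfl | hj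
      · rw [e1]; exact sp_Y1 h
      · rw [e j hj]; exact ⟨contDiffOn_const, fun _ _ _ => rfl⟩
    · have hd : HasDerivAt (W.Y1 x) (W.T x s - W.pv x) s :=
        hasDerivAt_prim ((h.spT.cont hx).sub continuous_const) s
      simp [Wave.Data.dv, vel, e1, hd.deriv]
  | succ m ih =>
    have e : W.upTo (m + 2) =
        Function.update (W.upTo (m + 1)) (m + 2) (W.step (W.upTo (m + 1)) (m + 1)) := rfl
    rw [e]
    refine ⟨by omega, fun j => ?_, fun j hj x s => ?_, fun x hx => (step_coef h ih hx).2⟩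
    · rcases eq_or_ne j (m + 2) with rfl | hj
      · rw [Function.update_self]; exact sp_step h ih.sp _
      · rw [Function.update_of_ne hj]; exact ih.sp j
    · rw [Function.update_of_ne (by omega)]; exact ih.beyond j (by omega) x s

omit [FiniteDimensional ℝ E] in
theorem upTo_stable (j : ℕ) : ∀ m, j ≤ m → W.upTo m j = W.upTo j j := fun m hm => by
  induction m, hm using Nat.le_induction with
  | base => rfl
  | succ m hm ih =>
    rw [← ih]
    match m with
    | 0 => obtain rfl : j = 0 := by omega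
           exact Function.update_of_ne (by omega) _ _
    | k + 1 => exact Function.update_of_ne (by omega) _ _

theorem sp_oscEE (h : W.Good) (N n : ℕ) :
    SP W.Ω (W.oscEE N n) ∧ ∀ x ∈ W.Ω, mean (W.oscEE N n x) = 0 := by
  have hI := inv_upTo h N
  have hc := Wave.Data.sp_sum_ip (sp_de h hI.sp) (sp_de h hI.sp) n
  exact Wave.Data.sp_centre h.open_
    (f := fun x s => W.toData.coefEE (W.upTo (N + 1)) n x s - W.Err n x s 0)
    ⟨hc.smooth.sub (h.smoothErr n 0), fun x hx s => by
      exact congrArg₂ (· - ·) (hc.per x hx s) (h.perErr n x hx 0 s)⟩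

/-- **The coefficients of a free wave.** In each order `1 ≤ n ≤ N` the correctors leave the
prescribed term, a tensor independent of the fast variable and the oscillating multiple
`oscEE` of `de²`. -/
theorem coef_eq (h : W.Good) {N n : ℕ} (hn : 1 ≤ n) (hN : n ≤ N) {x : E} (hx : x ∈ W.Ω) :
    ∃ S : Fin 3 → ℝ, ∀ s,
      W.toData.coefEE (W.upTo (N + 1)) n x s = W.Err n x s 0 + S 0 + W.oscEE N n x s ∧
      W.toData.coefVE (W.upTo (N + 1)) n x s = W.Err n x s 1 + S 1 ∧
      W.toData.coefVV (W.upTo (N + 1)) n x s = W.Err n x s 2 + S 2 := by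
  obtain ⟨m, rfl⟩ : ∃ m, n = m + 1 := ⟨n - 1, by omega⟩
  have hS := (step_coef h (inv_upTo h m) hx).1
  refine ⟨![mean fun r => W.toData.coefEE (W.upTo (N + 1)) (m + 1) x r - W.Err (m + 1) x r 0,
    -mean (W.toData.res1 (W.upTo (m + 1)) (m + 1) x),
    -2 * ∑ i, W.mvec (W.upTo (m + 1)) (m + 1) x i * W.kap i x], fun s => ⟨?_, ?_⟩⟩
  · simp only [Matrix.cons_val_zero, oscEE]; ring
  have hagree : ∀ j, j ≤ m + 2 → W.upTo (N + 1) j = W.upTo (m + 2) j := fun j hj => by
    rw [upTo_stable j _ (by omega), upTo_stable j _ hj]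
  have e1 : ∀ i, i ≤ m + 1 →
      W.toData.de (W.upTo (N + 1)) i x s = W.toData.de (W.upTo (m + 2)) i x s :=
    fun i hi => by simp only [Wave.Data.de, hagree i (by omega)]
  have e2 : ∀ i, i ≤ m + 1 →
      W.toData.dv (W.upTo (N + 1)) i x s = W.toData.dv (W.upTo (m + 2)) i x s :=
    fun i hi => by simp only [Wave.Data.dv, hagree i (by omega), hagree (i + 1) (by omega)]
  obtain ⟨h1, h2⟩ := hS s
  refine ⟨?_, ?_⟩
  · refine Eq.trans ?_ h1
    exact sum_congr rfl fun i hi => by
      have := mem_range.1 hi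
      rw [e2 i (by omega), e1 _ (by omega)]; rfl
  · refine Eq.trans ?_ h2
    exact sum_congr rfl fun i hi => by
      have := mem_range.1 hi
      rw [e2 i (by omega), e2 _ (by omega)]; rfl

end Data

end Vale.Agent.P205.Free
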