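import Vale.Agent.P205.Free.Profile

/-!
Legality after a free wave: a nonnegative multiple of the second normal plus a nonnegative
multiple of the turning of the velocity cannot cancel, whatever amplitude and fast variable.
-/

noncomputable section

open Set Finset Real
open scoped ContDiff

namespace Vale.Agent.P205.Free

open Wave

/-- The derivative of the second normal component is at least `-μ` times the speed. -/
theorem deriv_sh2_ge {c : ℝ × ℝ} (hc : 0 ≤ c.2) (hc1 : c.2 ≤ 1) (ha : 0 ≤ c.1) (s : ℝ) :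
    -c.2 * Real.sqrt (speed2 c s) ≤ deriv (sh2 c) s := by
  obtain ⟨hsp, hd⟩ := speed2_eq c s
  set C := Real.cos s
  set S := Real.sin s
  set w := (1 - (c.1 * S) ^ 2) / den c s with hw
  set N := Real.sqrt (C ^ 2 + c.2 ^ 2 * S ^ 4) with hN
  have hden := den_pos c s
  have hw1 : |w| ≤ 1 := by
    rw [hw, abs_div, abs_of_pos hden, div_le_one hden, den, crv_sq, abs_le]
    constructor <;> nlinarith [sq_nonneg (c.1 * S)]
  have hC1 : |C| ≤ 1 := Real.abs_cos_le_one s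
  have hCN : |C| ≤ N := Real.abs_le_sqrt (le_add_of_nonneg_right (by positivity))
  have key : |w * -(C * Real.sin (c.2 * C))| ≤ c.2 * N := by
    rw [abs_mul, abs_neg, abs_mul]
    calc |w| * (|C| * |Real.sin (c.2 * C)|) ≤ 1 * (1 * |c.2 * C|) :=
          mul_le_mul hw1 (mul_le_mul hC1 Real.abs_sin_le_abs (abs_nonneg _) zero_le_one)
            (by positivity) zero_le_one
      _ ≤ c.2 * N := by
          rw [one_mul, one_mul, abs_mul, abs_of_nonneg hc]
          exact mul_le_mul_of_nonneg_left hCN hc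
  have hcos : 0 ≤ Real.cos (c.2 * C) := by
    refine Real.cos_nonneg_of_mem_Icc (abs_le.1 ?_)
    rw [abs_mul, abs_of_nonneg hc]
    nlinarith [abs_nonneg C, Real.pi_gt_three]
  have hsqrt : Real.sqrt (speed2 c s) = 2 / den c s * (c.1 * N) := by
    rw [hsp, hN, show 4 * (c.1 ^ 2 * (C ^ 2 + c.2 ^ 2 * S ^ 4)) / den c s ^ 2 =
      (2 / den c s) ^ 2 * (c.1 ^ 2 * (C ^ 2 + c.2 ^ 2 * S ^ 4)) by rw [div_pow]; ring]
    rw [Real.sqrt_mul (by positivity), Real.sqrt_mul (by positivity),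
      Real.sqrt_sq (by positivity), Real.sqrt_sq ha]
  rw [hsqrt, hd, show -c.2 * (2 / den c s * (c.1 * N)) =
    2 / den c s * (c.1 * -(c.2 * N)) by ring]
  refine mul_le_mul_of_nonneg_left (mul_le_mul_of_nonneg_left ?_ ha) (by positivity)
  nlinarith [(abs_le.1 key).1, mul_nonneg hc (mul_nonneg (sq_nonneg S) hcos)]

namespace Prof

variable {E : Type} [NormedAddCommGroup E] [NormedSpace ℝ E] [FiniteDimensional ℝ E] {P : Prof E}

omit [FiniteDimensional ℝ E] in
/-- The turning of the velocity is orthogonal to `Z_e` and to the velocity. -/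
theorem turn_normal (h : P.OK) {x : E} (hx : x ∈ P.base.Ω) (s : ℝ) :
    ip (P.base.Ze x) (deriv (P.data.T x) s) = 0 ∧
      ip (P.data.T x s) (deriv (P.data.T x) s) = 0 := by
  obtain ⟨-, h0, hE0, h01, h02, -⟩ := frame h hx
  refine ⟨by simp [deriv_T h hx, hE0, h.ortE1 x hx, h.ortE2 x hx], ?_⟩
  have hd : ∀ {f : ℝ → ℝ}, Continuous f → ContDiff ℝ ∞ f → HasDerivAt f (deriv f s) s :=
    fun _ hf => ((hf.differentiable (by simp)) s).hasDerivAt
  obtain ⟨c0, c1, c2⟩ := continuous_sh (P.c x)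
  have e := ((((hd c0 (contDiff_sh.1.comp (contDiff_prodMk_right _))).pow 2).add
    ((hd c1 (contDiff_sh.2.1.comp (contDiff_prodMk_right _))).pow 2)).add
    ((hd c2 (contDiff_sh.2.2.comp (contDiff_prodMk_right _))).pow 2)).deriv
  have e1 : (sh0 (P.c x) ^ 2 + sh1 (P.c x) ^ 2 + sh2 (P.c x) ^ 2) = fun _ => 1 :=
    funext fun r => sh_sq (P.c x) r
  rw [e1, deriv_const] at e
  norm_num at e
  rw [deriv_T h hx]
  simp [data, unit, h0, h01, h02, h.unit1 x hx, h.unit2 x hx, h.ort12 x hx,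
    ip_comm (P.L1 x) (P.tauP x), ip_comm (P.L2 x) (P.tauP x), ip_comm (P.L2 x) (P.L1 x)]
  linear_combination -(P.len x ^ 2 / 2) * e

omit [FiniteDimensional ℝ E] in
/-- **No cancellation after a free wave**: with `0 ≤ μ ≤ 1`, `0 ≤ ρ` and `q, k ≥ 0`, the vector
`q • L2 + k • ∂ₛT` has square at least `(1 - μ) (q² + (k μ ρ / 3)²)`. -/
theorem turn_ge (h : P.OK) {x : E} (hx : x ∈ P.base.Ω) {μ ρ : ℝ} (hμ : 0 ≤ μ) (hμ1 : μ ≤ 1)
    (hρ : 0 ≤ ρ) (hc : P.c x = shapeOf μ (P.aP x) ρ) {q k : ℝ} (hq : 0 ≤ q) (hk : 0 ≤ k)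
    (s : ℝ) :
    (1 - μ) * (q ^ 2 + (k * (μ * ρ / 3)) ^ 2) ≤
      ip (q • P.L2 x + k • deriv (P.data.T x) s) (q • P.L2 x + k • deriv (P.data.T x) s) := by
  obtain ⟨ha, h0, -, h01, h02, -⟩ := frame h hx
  have hlen : 0 ≤ P.len x := (m0_shapeOf h hx hc).symm ▸ Real.sqrt_nonneg _
  have ha1 : 0 ≤ (P.c x).1 := by
    rw [hc]
    show 0 ≤ ρ * _ / _
    positivity
  have hD : deriv (sh2 (P.c x)) s ≥ -μ * Real.sqrt (speed2 (P.c x) s) := by
    simpa [hc, shapeOf] using deriv_sh2_ge (c := P.c x) (by rw [hc]; exact hμ)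
      (by rw [hc]; exact hμ1) ha1 s
  set d := Real.sqrt (speed2 (P.c x) s) with hdd
  have hd0 : 0 ≤ d := Real.sqrt_nonneg _
  have hd2 : d ^ 2 = speed2 (P.c x) s := Real.sq_sqrt (by unfold speed2; positivity)
  have hsq : ip (deriv (P.data.T x) s) (deriv (P.data.T x) s) = P.len x ^ 2 * d ^ 2 := by
    rw [hd2]
    simp [deriv_T h hx, speed2, h0, h01, h02, h.unit1 x hx, h.unit2 x hx, h.ort12 x hx,
      ip_comm (P.L1 x) (P.tauP x), ip_comm (P.L2 x) (P.tauP x), ip_comm (P.L2 x) (P.L1 x)]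
    ring
  have hge := hsq ▸ deriv_T_ge h hx (by nlinarith) hc s
  have hl : ip (P.L2 x) (deriv (P.data.T x) s) = P.len x * deriv (sh2 (P.c x)) s := by
    simp [deriv_T h hx, h.unit2 x hx, ip_comm (P.L2 x) (P.tauP x), h02,
      ip_comm (P.L2 x) (P.L1 x), h.ort12 x hx]
  simp only [ip_add_left, ip_add_right, ip_smul_left, ip_smul_right,
    ip_comm (deriv (P.data.T x) s) (P.L2 x), h.unit2 x hx, hl, hsq]
  nlinarith [mul_nonneg (mul_nonneg hq hk) (mul_nonneg hlen
      (show 0 ≤ deriv (sh2 (P.c x)) s + μ * d by linarith)),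
    mul_le_mul_of_nonneg_left hge (mul_nonneg (sub_nonneg.2 hμ1) (sq_nonneg k)),
    mul_nonneg hμ (sq_nonneg (q - k * (P.len x * d)))]

/-- The part of the second normal orthogonal to the new velocity. -/
def L2perp (P : Prof E) (x : E) (s : ℝ) : V4 := P.L2 x - sh2 (P.c x) s • P.unit x s

omit [FiniteDimensional ℝ E] in
theorem L2perp_normal (h : P.OK) {x : E} (hx : x ∈ P.base.Ω) (s : ℝ) :
    ip (P.base.Ze x) (P.L2perp x s) = 0 ∧ ip (P.data.T x s) (P.L2perp x s) = 0 := by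
  obtain ⟨u0, u, -, u2, -⟩ := ip_unit h hx s
  simp [L2perp, data, u0, u, u2, h.ortE2 x hx]
  ring

/-- The component along the second normal is at most `μ` in size. -/
theorem sh2_abs_le {c : ℝ × ℝ} (hc : 0 ≤ c.2) (s : ℝ) : |sh2 c s| ≤ c.2 := by
  have hd := den_pos c s
  have e : den c s = 1 + (c.1 * Real.sin s) ^ 2 := by rw [den, crv_sq]
  have h1 : |Real.sin (c.2 * Real.cos s)| ≤ c.2 := Real.abs_sin_le_abs.trans (by
    rw [abs_mul, abs_of_nonneg hc]
    exact mul_le_of_le_one_right hc (Real.abs_cos_le_one s))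
  rw [sh2, crv2, abs_div, abs_of_pos hd, div_le_iff₀ hd, abs_mul, abs_neg, abs_mul]
  calc |(2 : ℝ)| * (|c.1 * Real.sin s| * |Real.sin (c.2 * Real.cos s)|)
      ≤ 2 * (|c.1 * Real.sin s| * c.2) := by rw [abs_two]; gcongr
    _ ≤ c.2 * den c s := by
        rw [e, ← sq_abs (c.1 * Real.sin s)]
        nlinarith [sq_nonneg (|c.1 * Real.sin s| - 1)]

omit [FiniteDimensional ℝ E] in
/-- **The normal part after a free wave does not cancel**: the old second fundamental vector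
`q • L2`, projected off the new velocity, plus `k • ∂ₛT`. -/
theorem turn_proj_ge (h : P.OK) {x : E} (hx : x ∈ P.base.Ω) {μ ρ : ℝ} (hμ : 0 ≤ μ) (hμ1 : μ ≤ 1)
    (hρ : 0 ≤ ρ) (hc : P.c x = shapeOf μ (P.aP x) ρ) {q k : ℝ} (hq : 0 ≤ q) (hk : 0 ≤ k)
    (s : ℝ) :
    (1 - μ - μ ^ 2) * q ^ 2 + (1 - μ) * (k * (μ * ρ / 3)) ^ 2 ≤
      ip (q • P.L2perp x s + k • deriv (P.data.T x) s)
        (q • P.L2perp x s + k • deriv (P.data.T x) s) := by
  obtain ⟨-, u, -, u2, -⟩ := ip_unit h hx s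
  have hn := (turn_normal h hx s).2
  have hle := turn_ge h hx hμ hμ1 hρ hc hq hk s
  have hlen : 0 < P.len x := div_pos (frame h hx).1 (h.m0_pos x hx)
  have hu : ip (P.unit x s) (deriv (P.data.T x) s) = 0 := by
    have : P.len x * ip (P.unit x s) (deriv (P.data.T x) s) = 0 := by
      rw [← ip_smul_left]; exact hn
    exact (mul_eq_zero.1 this).resolve_left hlen.ne'
  have hs := abs_le.1 (sh2_abs_le (c := P.c x) (by rw [hc]; exact hμ) s)
  have hμs : sh2 (P.c x) s ^ 2 ≤ μ ^ 2 := by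
    rw [hc] at hs ⊢
    exact sq_le_sq' hs.1 hs.2
  have e : ip (q • P.L2perp x s + k • deriv (P.data.T x) s)
      (q • P.L2perp x s + k • deriv (P.data.T x) s) =
      ip (q • P.L2 x + k • deriv (P.data.T x) s) (q • P.L2 x + k • deriv (P.data.T x) s) -
        q ^ 2 * sh2 (P.c x) s ^ 2 := by
    simp [L2perp, u, u2, hu, h.unit2 x hx, ip_comm (P.L2 x) (P.unit x s),
      ip_comm (deriv (P.data.T x) s) (P.unit x s), ip_comm (deriv (P.data.T x) s) (P.L2 x)]
    ring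
  rw [e]
  nlinarith [mul_le_mul_of_nonneg_left hμs (sq_nonneg q)]

end Prof

end Vale.Agent.P205.Free
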